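import Mathlib
import Vale.Agent.P043.Aperiodic

/-!
P043, dimension three: phases modulo 28 and a mask replace the parity clock.

The phases satisfy `u x₁ + v x₂ = w (x₁ + x₂)`, so they are affine. The mask read along `x₂`
forces the slope of `v` to be odd, so the parity of `v` is a clock.
-/

namespace Vale.Agent.P043.D3

open Vale.Agent.P043 (coef lin Rel val3 rel_intended no_periodic)

/-- the bits: two for each form, three one-hot phases modulo 28, the mask and its negation -/
abbrev Var : Type := ((Fin 3 × Fin 5) × Bool) ⊕ (Fin 3 × ZMod 28) ⊕ Fin 2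

/-- a phase bit -/
abbrev ph (k : Fin 3) (i : ZMod 28) : Var := Sum.inr (Sum.inl (k, i))

/-- the mask bit -/
abbrev vb : Var := Sum.inr (Sum.inr 0)

/-- the negated mask bit -/
abbrev vc : Var := Sum.inr (Sum.inr 1)

/-- the form along whose level lines a bit is constant -/
def fm : Var → ℤ × ℤ
  | Sum.inl ((c, j), _) => coef c j
  | Sum.inr (Sum.inl (k, _)) => if k = 0 then (1, 0) else if k = 1 then (0, 1) else (1, 1)
  | Sum.inr (Sum.inr _) => (0, 1)

/-- the direction of a bit -/
def vdir (i : Var) : ℤ × ℤ := if (fm i).1 = 1 then (-(fm i).2, 1) else (1, -(fm i).1)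

/-- a point on a level line -/
def bpt (i : Var) (m : ℤ) : ℤ × ℤ := if (fm i).1 = 1 then (m, 0) else (0, m)

/-- the value of the form of a bit -/
def flin (i : Var) (x : ℤ × ℤ) : ℤ := (fm i).1 * x.1 + (fm i).2 * x.2

/-- the coordinate along the direction of a bit -/
def lat (i : Var) (x : ℤ × ℤ) : ℤ := if (fm i).1 = 1 then x.2 else x.1

lemma fm_cases (i : Var) : (fm i).1 = 1 ∨ (fm i).2 = 1 := by
  rcases i with ⟨⟨c, j⟩, b⟩ | ⟨k, i⟩ | k
  · fin_cases c <;> fin_cases j <;> simp [fm, coef]
  · fin_cases k <;> simp [fm]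
  · simp [fm]

lemma flin_vdir (i : Var) (x : ℤ × ℤ) (k : ℤ) : flin i (x + k • vdir i) = flin i x := by
  rcases fm_cases i with h | h
  · simp [flin, vdir, h]; ring
  · by_cases h' : (fm i).1 = 1
    · simp [flin, vdir, h']; ring
    · simp [flin, vdir, h', h]; ring

lemma lat_vdir (i : Var) (x : ℤ × ℤ) (k : ℤ) : lat i (x + k • vdir i) = lat i x + k := by
  by_cases h' : (fm i).1 = 1 <;> simp [lat, vdir, h']

lemma point_eq (i : Var) (x : ℤ × ℤ) : ∃ k : ℤ, x = bpt i (flin i x) + k • vdir i := by
  obtain ⟨x1, x2⟩ := x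
  by_cases h' : (fm i).1 = 1
  · exact ⟨x2, by ext <;> simp [bpt, flin, vdir, h']; ring⟩
  · exact ⟨x1, by ext <;> simp [bpt, flin, vdir, h', (fm_cases i).resolve_left h']; ring⟩

/-- first bit and second bit of a state -/
def encS : Option (ZMod 3) → Bool → Bool
  | none, _ => false
  | some t, false => decide (t = 0 ∨ t = 2)
  | some t, true => decide (t = 1 ∨ t = 2)

/-- the state of two bits -/
def decS : Bool → Bool → Option (ZMod 3)
  | false, false => none
  | true, false => some 0
  | false, true => some 1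
  | true, true => some 2

lemma dec_enc : ∀ s, decS (encS s false) (encS s true) = s := by decide

/-- parity of a phase -/
def par (z : ZMod 28) : Bool := decide (z.val % 2 = 1)

/-- the mask -/
def mskA (z : ZMod 28) : Bool :=
  decide (3 ≤ z.val % 7 ∧ z.val % 4 ≠ if z.val % 7 < 5 then 2 else 3)

lemma par_cast (z : ℤ) : par (z : ZMod 28) = decide (Odd z) := by
  have h : (((z : ZMod 28).val : ℕ) : ℤ) = z % (28 : ℕ) := ZMod.val_intCast z
  rw [par, decide_eq_decide, Int.odd_iff]
  omega

/-- the pattern of a state vector -/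
def statesOf (f : Var → Bool) (c : Fin 3) (j : Fin 5) : Option (ZMod 3) :=
  decS (f (Sum.inl ((c, j), false))) (f (Sum.inl ((c, j), true)))

/-- the pointwise relation -/
def Rel28 (f : Var → Bool) : Prop :=
  ∃ u v : ZMod 28, (∀ i, f (ph 0 i) = decide (i = u)) ∧ (∀ i, f (ph 1 i) = decide (i = v)) ∧
    (∀ i, f (ph 2 i) = decide (i = u + v)) ∧ f vb = mskA v ∧ f vc = !mskA v ∧
    Rel (statesOf f) (par u) (par (u + v)) (par v)

/-- the intended bits -/
def intended (i : Var) (x : ℤ × ℤ) : Bool :=
  match i with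
  | Sum.inl ((c, j), k) => encS (val3 (lin c j x)) k
  | Sum.inr (Sum.inl (_, z)) => decide (z = (flin i x : ZMod 28))
  | Sum.inr (Sum.inr k) => xor (decide (k = 1)) (mskA (x.2 : ZMod 28))

lemma intended_vdir (i : Var) (x : ℤ × ℤ) (k : ℤ) :
    intended i (x + k • vdir i) = intended i x := by
  rcases i with ⟨⟨c, j⟩, b⟩ | ⟨l, z⟩ | l
  · have h : lin c j (x + k • vdir (Sum.inl ((c, j), b))) = lin c j x :=
      flin_vdir (Sum.inl ((c, j), b)) x k
    simp only [intended, h]
  · simp only [intended, flin_vdir]
  · have h := flin_vdir (Sum.inr (Sum.inr l)) x k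
    simp only [flin, fm, zero_mul, one_mul, zero_add] at h
    simp only [intended, h]

lemma rel28_intended (x : ℤ × ℤ) : Rel28 fun i => intended i x := by
  refine ⟨(x.1 : ZMod 28), (x.2 : ZMod 28), fun i => ?_, fun i => ?_, fun i => ?_, ?_, ?_, ?_⟩
  · simp [intended, flin, fm]
  · simp [intended, flin, fm]
  · simp [intended, flin, fm]
  · simp [intended]
  · simp [intended]
  · have e : (statesOf fun i => intended i x) = fun c j => val3 (lin c j x) := by
      funext c j
      simp only [statesOf, intended, dec_enc]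
    rw [e, ← Int.cast_add, par_cast, par_cast, par_cast]
    exact rel_intended x

/-- A solution has no period. -/
theorem clock_no_periodic (bit : Var → ℤ → Bool)
    (h : ∀ x, Rel28 fun i => bit i (flin i x))
    (hA : ∀ m, (Finset.univ.filter fun j : Fin 4 => bit vb (m + 7 * j) = true).card ∈
      ({0, 3} : Finset ℕ))
    (hB : ∀ m, ∃ j : Fin 7, bit vb (m + 4 * j) = true)
    (N : ℤ) (hN : 0 < N)
    (hper : ∀ b m, bit (Sum.inl (((2 : Fin 3), (0 : Fin 5)), b)) (m + N)
      = bit (Sum.inl (((2 : Fin 3), (0 : Fin 5)), b)) m) : False := by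
  choose U V hU hV hW hb hc hR using h
  beta_reduce at hU hV hW hb hc
  -- each phase is a function of its own form
  have one : ∀ (k : Fin 3) (z z' : ZMod 28) (m : ℤ),
      (∀ i, bit (ph k i) m = decide (i = z)) → (∀ i, bit (ph k i) m = decide (i = z')) →
        z = z' := by
    intro k z z' m h1 h2
    have := (h1 z).symm.trans (h2 z)
    simpa using this
  have fl : ∀ x i, flin (ph 0 i) x = x.1 ∧ flin (ph 1 i) x = x.2 ∧
      flin (ph 2 i) x = x.1 + x.2 := by
    intro x i
    simp [flin, fm]
  have eU : ∀ x, U x = U (x.1, 0) := fun x => one 0 _ _ x.1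
    (fun i => by have := hU x i; rwa [(fl x i).1] at this)
    (fun i => by have := hU (x.1, 0) i; rwa [(fl (x.1, 0) i).1] at this)
  have eV : ∀ x, V x = V (0, x.2) := fun x => one 1 _ _ x.2
    (fun i => by have := hV x i; rwa [(fl x i).2.1] at this)
    (fun i => by have := hV (0, x.2) i; rwa [(fl (0, x.2) i).2.1] at this)
  have eW : ∀ x y : ℤ × ℤ, x.1 + x.2 = y.1 + y.2 → U x + V x = U y + V y := fun x y e =>
    one 2 _ _ (x.1 + x.2)
      (fun i => by have := hW x i; rwa [(fl x i).2.2] at this)
      (fun i => by have := hW y i; rwa [(fl y i).2.2, ← e] at this)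
  obtain ⟨u, hu⟩ : ∃ u : ℤ → ZMod 28, ∀ a, u a = U (a, 0) := ⟨_, fun _ => rfl⟩
  obtain ⟨v, hv⟩ : ∃ v : ℤ → ZMod 28, ∀ a, v a = V (0, a) := ⟨_, fun _ => rfl⟩
  have sum : ∀ a c, u a + v c = u 0 + v (a + c) := by
    intro a c
    have := eW (a, c) (0, a + c) (by simp)
    rw [eU (a, c), eV (a, c), eU (0, a + c)] at this
    simpa [hu, hv] using this
  obtain ⟨s, hs⟩ : ∃ s, s = u 1 - u 0 := ⟨_, rfl⟩
  have step : ∀ c, v (c + 1) = v c + s := by
    intro c
    have := sum 1 c
    rw [hs, show (c + 1 : ℤ) = 1 + c by ring]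
    linear_combination -this
  have affine : ∀ c : ℤ, v c = v 0 + (c : ZMod 28) * s := by
    intro c
    induction c using Int.induction_on with
    | zero => simp
    | succ n ih => rw [step, ih]; push_cast; ring
    | pred n ih =>
      have := step (-(n : ℤ) - 1)
      rw [sub_add_cancel, ih] at this
      push_cast at this ⊢
      linear_combination -this
  have hbv : ∀ x : ℤ × ℤ, bit vb x.2 = mskA (v x.2) := by
    intro x
    have := hb x
    simp only [flin, fm, zero_mul, one_mul, zero_add] at this
    rw [this, eV x, hv]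
  have sodd : par s = true := by
    by_contra hse
    have h14 : 14 * s = 0 := by
      revert hse
      generalize s = t
      revert t
      decide
    have per : ∀ m, bit vb (m + 14) = bit vb m := by
      intro m
      rw [hbv (0, m + 14), hbv (0, m)]
      congr 1
      rw [affine, affine m]
      push_cast
      linear_combination h14
    have none' : ∀ m, bit vb m = false := by
      intro m
      have h4 := hA m
      rw [show (Finset.univ : Finset (Fin 4)) = {0, 1, 2, 3} from rfl] at h4
      simp only [Finset.filter_insert, Finset.filter_singleton] at h4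
      have e2 : bit vb (m + 7 * ((2 : Fin 4) : ℕ)) = bit vb m := per m
      have e3 : bit vb (m + 7 * ((3 : Fin 4) : ℕ)) = bit vb (m + 7) := by
        rw [← per (m + 7)]; congr 1; simp [add_assoc]
      have e0 : m + 7 * ((0 : Fin 4) : ℕ) = m := by simp
      have e1 : m + 7 * ((1 : Fin 4) : ℕ) = m + 7 := by simp
      simp only [e0, e1, e2, e3] at h4
      revert h4
      cases bit vb m <;> cases bit vb (m + 7) <;> decide
    obtain ⟨j, hj⟩ := hB 0
    rw [none'] at hj
    simp at hj
  have parv : ∀ c : ℤ, par (v c) = decide (Odd (c + (v 0).val)) := by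
    intro c
    have hs' : s.val % 2 = 1 := by simpa [par] using sodd
    rw [affine, ← par_cast]
    rw [par, par, decide_eq_decide]
    push_cast
    rw [ZMod.natCast_zmod_val, ZMod.val_add, ZMod.val_add, ZMod.val_mul]
    have hm : ((c : ZMod 28).val * s.val) % 2 = (c : ZMod 28).val % 2 := by
      rw [Nat.mul_mod, hs', mul_one, Nat.mod_mod]
    omega
  apply no_periodic (fun c j m => decS (bit (Sum.inl ((c, j), false)) m)
      (bit (Sum.inl ((c, j), true)) m)) (fun a => par (u a)) (fun m => par (u 0 + v m))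
    ((v 0).val : ℤ) ?_ N hN
  · intro m
    simp only [hper]
  · intro x
    have hr := hR x
    have eu : U x = u x.1 := by rw [eU, hu]
    have ev : V x = v x.2 := by rw [eV, hv]
    have ew : u x.1 + v x.2 = u 0 + v (x.1 + x.2) := sum _ _
    rw [eu, ev, ew, parv] at hr
    exact hr

end Vale.Agent.P043.D3
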