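import Mathlib
import Vale.Agent.P043.Gadget

/-!
P043, dimension three: the group `ℤ² × ℤ/R²`, sections, counting equations.
-/

namespace Vale.Agent.P043.D3

open Vale.Agent.P043 (EqSol)

/-- `E` tiles with the set `A`: every element is in exactly one translate, counted by index. -/
def Covers {Γ ι : Type*} [AddCommGroup Γ] (A : Set Γ) (E : ι → Γ) : Prop :=
  ∀ γ, ∃! i, γ - E i ∈ A

variable (R : ℕ)

/-- the group `ℤ² × ℤ/R²` -/
abbrev Gam : Type := (ℤ × ℤ) × ZMod (R * R)

/-- the fibre group -/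
abbrev Fib : Type := ZMod R

/-- the point `(x, y)` -/
def pnt (x : ℤ × ℤ) (y : ℤ) : Gam R := (x, (y : ZMod (R * R)))

/-- multiples of `R` in `ℤ/R²` -/
def upHom : ZMod R →+ ZMod (R * R) :=
  ZMod.lift R ⟨(Int.castAddHom (ZMod (R * R))).comp (AddMonoidHom.mulRight (R : ℤ)), by
    show (((R : ℤ) * (R : ℤ) : ℤ) : ZMod (R * R)) = 0
    rw [ZMod.intCast_zmod_eq_zero_iff_dvd]
    exact ⟨1, by push_cast; ring⟩⟩

lemma upHom_int (k : ℤ) : upHom R (k : ZMod R) = ((k * R : ℤ) : ZMod (R * R)) := by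
  simp only [upHom, ZMod.lift_coe]
  rfl

/-- embedding of the fibre group -/
def emb : Fib R →+ Gam R where
  toFun g := (0, upHom R g)
  map_zero' := by simp
  map_add' a b := by simp

lemma pnt_add (x v : ℤ × ℤ) (y s : ℤ) : pnt R (x + v) (y + s) = pnt R x y + pnt R v s := by
  simp [pnt]

lemma decomp (γ : Gam R) : ∃ x y, γ = pnt R x y := by
  obtain ⟨x, Y⟩ := γ
  obtain ⟨y, rfl⟩ := ZMod.intCast_surjective Y
  exact ⟨x, y, rfl⟩

lemma pnt_shift (x : ℤ × ℤ) (y k : ℤ) : pnt R x (y + R * k) = pnt R x y + emb R (k : ZMod R) := by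
  simp [pnt, emb, upHom_int, mul_comm]

lemma pnt_eq [NeZero R] {x x' : ℤ × ℤ} {y y' : ℤ} {g g' : Fib R}
    (h : pnt R x y + emb R g = pnt R x' y' + emb R g') :
    ∃ k : ℤ, x' = x ∧ y' = y + R * k ∧ g' = g - (k : ZMod R) := by
  obtain ⟨d, rfl⟩ := ZMod.intCast_surjective g
  obtain ⟨d', rfl⟩ := ZMod.intCast_surjective g'
  simp only [pnt, emb, AddMonoidHom.coe_mk, ZeroHom.coe_mk, Prod.mk_add_mk, add_zero,
    upHom_int, Prod.mk.injEq] at h
  obtain ⟨hx, hy⟩ := h
  rw [← Int.cast_add, ← Int.cast_add, ← sub_eq_zero, ← Int.cast_sub,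
    ZMod.intCast_zmod_eq_zero_iff_dvd] at hy
  obtain ⟨l, hl⟩ := hy
  push_cast at hl
  refine ⟨d - d' - R * l, hx.symm, by linear_combination -hl, ?_⟩
  simp

/-- `a` records, for each point of the base, the element of `A` over it -/
def HasSection (A : Set (Gam R)) (a : ℤ × ℤ → ℤ → Fib R) : Prop :=
  ∀ x y g, pnt R x y - emb R g ∈ A ↔ g = a x y

lemma base_covers_iff (A : Set (Gam R)) :
    Covers A (fun g : Fib R => emb R g) ↔ ∃ a, HasSection R A a := by
  constructor
  · intro h
    choose a ha hu using fun x y => (h (pnt R x y))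
    exact ⟨a, fun x y g => ⟨fun hg => hu x y g hg, fun e => e ▸ ha x y⟩⟩
  · rintro ⟨a, ha⟩ γ
    obtain ⟨x, y, rfl⟩ := decomp R γ
    exact ⟨a x y, (ha x y _).2 rfl, fun g hg => (ha x y g).1 hg⟩

/-- a section turns a translation by `R` in `y` into a step of the fibre -/
lemma section_cov {A : Set (Gam R)} {a : ℤ × ℤ → ℤ → Fib R} (ha : HasSection R A a)
    (x : ℤ × ℤ) (y k : ℤ) : a x (y + R * k) = a x y + (k : ZMod R) := by
  symm
  rw [← ha, pnt_shift, map_add, add_sub_add_right_eq_sub, ha]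

/-- the set of a covariant map has that map as section -/
lemma hasSection_range [NeZero R] (a : ℤ × ℤ → ℤ → Fib R)
    (hcov : ∀ x y (k : ℤ), a x (y + R * k) = a x y + (k : ZMod R)) :
    HasSection R {γ | ∃ x y, γ = pnt R x y - emb R (a x y)} a := by
  intro x y g
  refine ⟨?_, fun e => ⟨x, y, by rw [e]⟩⟩
  rintro ⟨x', y', e⟩
  obtain ⟨k, hx, hy, hg⟩ := pnt_eq R (g := -g) (g' := -(a x' y')) (by
    rw [map_neg, map_neg, ← sub_eq_add_neg, ← sub_eq_add_neg]; exact e)
  rw [hx, hy, hcov] at hg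
  linear_combination hg

/-- the cells of an equation -/
def cells {J : Type*} (t : J → (ℤ × ℤ) × ℤ) (W : J → Fib R → Prop) :
    (Σ j, {w // W j w}) → Gam R :=
  fun c => emb R c.2.1 - pnt R (t c.1).1 (t c.1).2

lemma covers_cells_iff {A : Set (Gam R)} {a : ℤ × ℤ → ℤ → Fib R} (ha : HasSection R A a)
    {J : Type*} (t : J → (ℤ × ℤ) × ℤ) (W : J → Fib R → Prop) :
    Covers A (cells R t W) ↔ EqSol a t W := by
  have key : ∀ x y g (c : Σ j, {w // W j w}),
      pnt R x y + emb R g - cells R t W c ∈ A ↔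
        c.2.1 = g + a (x + (t c.1).1) (y + (t c.1).2) := by
    intro x y g c
    have e : pnt R x y + emb R g - cells R t W c
        = pnt R (x + (t c.1).1) (y + (t c.1).2) - emb R (c.2.1 - g) := by
      simp only [cells, pnt_add, map_sub]; abel
    rw [e, ha, sub_eq_iff_eq_add']
  constructor
  · intro h x y g
    obtain ⟨c, hc, hu⟩ := h (pnt R x y + emb R g)
    rw [key] at hc
    refine ⟨c.1, by simpa only [← hc] using c.2.2, fun j hj => ?_⟩
    exact congrArg Sigma.fst (hu ⟨j, ⟨_, hj⟩⟩ ((key x y g _).2 rfl))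
  · intro h γ
    obtain ⟨x, y, rfl⟩ := decomp R γ
    obtain ⟨j, hj, hu⟩ := h x y 0
    have key0 : ∀ c : Σ j, {w // W j w}, pnt R x y - cells R t W c ∈ A ↔
        c.2.1 = 0 + a (x + (t c.1).1) (y + (t c.1).2) := fun c => by
      have := key x y 0 c
      rwa [map_zero, add_zero] at this
    refine ⟨⟨j, ⟨_, hj⟩⟩, (key0 _).2 rfl, ?_⟩
    rintro ⟨j', w, hw⟩ hc
    rw [key0] at hc
    simp only at hc
    obtain rfl := hu j' (by simpa only [← hc] using hw)
    subst hc
    rfl

section Count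

variable {X G P C : Type*} [AddCommGroup X] [AddCommGroup G] [AddCommGroup P] [AddCommGroup C]

/-- pieces of a counting equation: a table of values, and colour zero -/
def countPiece {J : Type*} (π : G →+ P) (χ : G →+ C) (β : J → P → Prop) (j : J) (w : G) : Prop :=
  β j (π w) ∧ χ w = 0

lemma count_iff {J : Type*} (π : G →+ P) (χ : G →+ C) (β : J → P → Prop)
    (hsurj : ∀ p c, ∃ g, π g = p ∧ χ g = c) (a : X → ℤ → G) (t : J → X × ℤ) :
    EqSol a t (countPiece π χ β) ↔ ∀ x y V l, ∃! j,
      β j (V + π (a (x + (t j).1) (y + (t j).2))) ∧ χ (a (x + (t j).1) (y + (t j).2)) = l := by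
  constructor
  · intro h x y V l
    obtain ⟨g, hp, hc⟩ := hsurj V (-l)
    refine (existsUnique_congr fun j => ?_).1 (h x y g)
    simp only [countPiece, map_add, hp, hc, neg_add_eq_zero]
    rw [eq_comm (a := l)]
  · intro h x y g
    refine (existsUnique_congr fun j => ?_).2 (h x y (π g) (-(χ g)))
    simp only [countPiece, map_add, add_eq_zero_iff_eq_neg']

/-- The number of incidences of a value is the number of colours. -/
lemma count_card {J : Type*} [Fintype J] [Fintype C] {β : J → P → Prop} [∀ j v, Decidable (β j v)]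
    {V : P} {v : J → P} {c : J → C} (h : ∀ l, ∃! j, β j (V + v j) ∧ c j = l) :
    (Finset.univ.filter fun j => β j (V + v j)).card = Fintype.card C := by
  classical
  refine Finset.card_bij (fun j _ => c j) (fun _ _ => Finset.mem_univ _) ?_ ?_
  · intro j hj j' hj' e
    simp only [Finset.mem_filter, Finset.mem_univ, true_and] at hj hj'
    exact (h (c j)).unique ⟨hj, rfl⟩ ⟨hj', e.symm⟩
  · intro l _
    obtain ⟨j, hj, -⟩ := h l
    exact ⟨j, by simp [hj.1], hj.2⟩

end Count

/-- duplicating an equation with one moved cell forces an invariance -/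
lemma moved_invariant {G : Type*} [AddCommGroup G] {ι : Type} [DecidableEq ι] {A : Set G}
    {E : ι → G} {i₀ : ι} {k : G} (h1 : Covers A E)
    (h2 : Covers A (Function.update E i₀ (E i₀ + k))) (a : G) : a + k ∈ A ↔ a ∈ A := by
  constructor
  · intro h
    obtain ⟨i, hi, hu⟩ := h2 (a + k + E i₀)
    by_cases hne : i = i₀
    · subst hne
      rw [Function.update_self] at hi
      have e : a + k + E i - (E i + k) = a := by abel
      rwa [e] at hi
    · rw [Function.update_of_ne hne] at hi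
      exact absurd ((h1 (a + k + E i₀)).unique hi (by simpa using h)) hne
  · intro h
    obtain ⟨i, hi, hu⟩ := h1 (a + k + E i₀)
    by_cases hne : i = i₀
    · subst hne
      simpa using hi
    · exfalso
      apply hne
      refine (h2 (a + k + E i₀)).unique (by rw [Function.update_of_ne hne]; exact hi) ?_
      rw [Function.update_self, show a + k + E i₀ - (E i₀ + k) = a by abel]
      exact h

lemma invariant_zsmul {G : Type*} [AddCommGroup G] {A : Set G} {k : G}
    (h : ∀ a, a + k ∈ A ↔ a ∈ A) (t : ℤ) : ∀ a, a + t • k ∈ A ↔ a ∈ A := by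
  induction t using Int.induction_on with
  | zero => simp
  | succ i ih => intro a; rw [add_smul, one_smul, ← add_assoc, h, ih]
  | pred i ih =>
    intro a
    have h' := h (a + (-(i : ℤ) - 1) • k)
    rw [add_assoc, ← add_one_zsmul, sub_add_cancel, ih] at h'
    exact h'.symm

end Vale.Agent.P043.D3
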