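import Mathlib

/-!
P043, dimension three: the multiset table of slots, block layouts, and the counting lemma.

`ent slot v` says that the value `v` sits at the slot `slot`. Two values have multiplicity two
and two have multiplicity zero, but each row and each column has its usual size.
-/

namespace Vale.Agent.P043.D3

variable {a b : ℕ}

/-- values of a pair component, and also slots -/
abbrev Val (a b : ℕ) : Type := ZMod a × ZMod b

/-- the table: the value `v` sits at the slot `slot` -/
def ent (slot v : Val a b) : Prop :=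
  if slot = (0, 0) ∨ slot = (1, 1) then v = (0, 0) ∨ v = (1, 1)
  else v = slot ∧ slot ≠ (0, 1) ∧ slot ≠ (1, 0)

instance (slot v : Val a b) : Decidable (ent slot v) := by unfold ent; infer_instance

/-- multiplicity of a value -/
def mult [NeZero a] [NeZero b] (v : Val a b) : ℕ :=
  (Finset.univ.filter fun slot => ent slot v).card

lemma ent_swap (slot v : Val a b) : ent slot.swap v.swap ↔ ent slot v := by
  obtain ⟨s, t⟩ := slot
  obtain ⟨p, q⟩ := v
  simp only [ent, Prod.swap_prod_mk, Prod.mk.injEq, ne_eq]
  split_ifs <;> tauto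

lemma ent_col [Fact (1 < a)] [Fact (1 < b)] (c : ZMod b) (j : ZMod a) :
    ∃! p : ZMod b × ZMod a, ent (j, p.1) (p.2, c) := by
  by_cases hc0 : c = 0
  · subst hc0
    by_cases hj0 : j = 0
    · subst hj0
      refine ⟨(0, 0), by simp [ent], fun ⟨k, r⟩ h => ?_⟩
      simp only [ent, Prod.mk.injEq, ne_eq] at h
      split_ifs at h with e <;> simp_all
    · by_cases hj1 : j = 1
      · subst hj1
        refine ⟨(1, 0), by simp [ent], fun ⟨k, r⟩ h => ?_⟩
        simp only [ent, Prod.mk.injEq, ne_eq] at h
        split_ifs at h with e <;> simp_all [eq_comm] <;> tauto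
      · refine ⟨(0, j), by simp [ent, hj0, hj1], fun ⟨k, r⟩ h => ?_⟩
        simp only [ent, Prod.mk.injEq, ne_eq] at h
        split_ifs at h with e <;> simp_all [eq_comm]
  · by_cases hc1 : c = 1
    · subst hc1
      by_cases hj0 : j = 0
      · subst hj0
        refine ⟨(0, 1), by simp [ent], fun ⟨k, r⟩ h => ?_⟩
        simp only [ent, Prod.mk.injEq, ne_eq] at h
        split_ifs at h with e <;> simp_all [eq_comm] <;> tauto
      · by_cases hj1 : j = 1
        · subst hj1
          refine ⟨(1, 1), by simp [ent], fun ⟨k, r⟩ h => ?_⟩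
          simp only [ent, Prod.mk.injEq, ne_eq] at h
          split_ifs at h with e <;> simp_all [eq_comm]
        · refine ⟨(1, j), by simp [ent, hj0, hj1], fun ⟨k, r⟩ h => ?_⟩
          simp only [ent, Prod.mk.injEq, ne_eq] at h
          split_ifs at h with e <;> simp_all [eq_comm]
    · refine ⟨(c, j), by simp [ent, hc0, hc1], fun ⟨k, r⟩ h => ?_⟩
      simp only [ent, Prod.mk.injEq, ne_eq] at h
      split_ifs at h with e <;> simp_all [eq_comm]

lemma ent_row [Fact (1 < a)] [Fact (1 < b)] (r : ZMod a) (k : ZMod b) :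
    ∃! p : ZMod a × ZMod b, ent (p.1, k) (r, p.2) := by
  obtain ⟨p, hp, hu⟩ := ent_col (a := b) (b := a) r k
  exact ⟨p, (ent_swap (a := a) (b := b) (p.1, k) (r, p.2)).1 hp,
    fun p' h => hu p' ((ent_swap (a := a) (b := b) (p'.1, k) (r, p'.2)).2 h)⟩

/-- A layout of the active elements of `S` by blocks of `a` and of `b` elements: values, and
labels that read one slot coordinate inside each block. -/
lemma exists_layout [Fact (1 < a)] [Fact (1 < b)] {S : Type*} [Fintype S] (act : S → Prop)
    [DecidablePred act] (h : ∃ α β : ℕ, Fintype.card {s // act s} = α * a + β * b) :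
    ∃ (T : S → Val a b) (lab : S → Val a b → S),
      (∀ s v, act (lab s v) ↔ act s) ∧ (∀ s v, ¬ act s → lab s v = s) ∧
      ∀ V w l, act l → ∃! st : S × Val a b,
        act st.1 ∧ ent st.2 (V + T st.1) ∧ lab st.1 (w + st.2) = l := by
  classical
  have : NeZero a := ⟨(Fact.out : 1 < a).ne_bot⟩
  have : NeZero b := ⟨(Fact.out : 1 < b).ne_bot⟩
  obtain ⟨α, β, hcard⟩ := h
  obtain ⟨e⟩ : Nonempty ({s // act s} ≃ (Fin α × ZMod a) ⊕ (Fin β × ZMod b)) :=
    ⟨Fintype.equivOfCardEq (by simp [hcard, ZMod.card])⟩
  obtain ⟨T, hT⟩ : ∃ T : S → Val a b, ∀ s,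
      T s = if hs : act s then Sum.elim (fun p => (p.2, 0)) (fun p => (0, p.2)) (e ⟨s, hs⟩)
        else 0 := ⟨_, fun _ => rfl⟩
  obtain ⟨lab, hlab⟩ : ∃ lab : S → Val a b → S, ∀ s v,
      lab s v = if hs : act s then
        (e.symm (Sum.map (fun p => (p.1, v.1)) (fun p => (p.1, v.2)) (e ⟨s, hs⟩))).1
        else s := ⟨_, fun _ _ => rfl⟩
  refine ⟨T, lab, fun s v => ?_, fun s v hs => by rw [hlab, dif_neg hs], fun V w l hl => ?_⟩
  · rw [hlab]
    by_cases hs : act s
    · rw [dif_pos hs]
      exact iff_of_true (e.symm _).2 hs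
    · rw [dif_neg hs]
  -- the incidence is read in the block of the label
  have key : ∀ s (hs : act s) v, lab s v = l ↔
      Sum.map (fun p : Fin α × ZMod a => (p.1, v.1)) (fun p : Fin β × ZMod b => (p.1, v.2))
        (e ⟨s, hs⟩) = e ⟨l, hl⟩ := by
    intro s hs v
    rw [hlab, dif_pos hs, ← Equiv.symm_apply_eq, Subtype.ext_iff]
  rcases hle : e ⟨l, hl⟩ with ⟨i, j⟩ | ⟨i, j⟩
  · obtain ⟨⟨k, r⟩, hp, hu⟩ := ent_col (a := a) (b := b) V.2 (j - w.1)
    obtain ⟨s₀, hs₀⟩ : ∃ s₀, s₀ = e.symm (Sum.inl (i, r - V.1)) := ⟨_, rfl⟩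
    have hes : e s₀ = Sum.inl (i, r - V.1) := by rw [hs₀, e.apply_symm_apply]
    refine ⟨(s₀.1, (j - w.1, k)), ⟨s₀.2, ?_, ?_⟩, ?_⟩
    · rw [hT, dif_pos s₀.2, hes]
      convert hp using 1
      ext <;> simp
    · rw [key s₀.1 s₀.2, hes, hle]
      simp
    · rintro ⟨s, u, v⟩ ⟨hs, he, hlv⟩
      simp only at hs he hlv
      rw [key s hs, hle] at hlv
      rcases hes' : e ⟨s, hs⟩ with ⟨i', r'⟩ | ⟨i', r'⟩
      · rw [hes'] at hlv
        simp only [Sum.map_inl, Sum.inl.injEq, Prod.mk.injEq, Prod.fst_add] at hlv
        obtain ⟨rfl, hju⟩ := hlv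
        rw [hT, dif_pos hs, hes'] at he
        simp only [Sum.elim_inl] at he
        have hu' : u = j - w.1 := by rw [← hju]; ring
        subst hu'
        have := hu (v, V.1 + r') (by convert he using 1; ext <;> simp)
        simp only [Prod.mk.injEq] at this
        obtain ⟨rfl, hr⟩ := this
        have hr' : r' = r - V.1 := by rw [← hr]; ring
        subst hr'
        have : (⟨s, hs⟩ : {s // act s}) = s₀ := e.injective (by rw [hes', hes])
        rw [← this]
      · rw [hes'] at hlv; simp at hlv
  · obtain ⟨⟨k, r⟩, hp, hu⟩ := ent_row (a := a) (b := b) V.1 (j - w.2)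
    obtain ⟨s₀, hs₀⟩ : ∃ s₀, s₀ = e.symm (Sum.inr (i, r - V.2)) := ⟨_, rfl⟩
    have hes : e s₀ = Sum.inr (i, r - V.2) := by rw [hs₀, e.apply_symm_apply]
    refine ⟨(s₀.1, (k, j - w.2)), ⟨s₀.2, ?_, ?_⟩, ?_⟩
    · rw [hT, dif_pos s₀.2, hes]
      convert hp using 1
      ext <;> simp
    · rw [key s₀.1 s₀.2, hes, hle]
      simp
    · rintro ⟨s, u, v⟩ ⟨hs, he, hlv⟩
      simp only at hs he hlv
      rw [key s hs, hle] at hlv
      rcases hes' : e ⟨s, hs⟩ with ⟨i', r'⟩ | ⟨i', r'⟩
      · rw [hes'] at hlv; simp at hlv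
      · rw [hes'] at hlv
        simp only [Sum.map_inr, Sum.inr.injEq, Prod.mk.injEq, Prod.snd_add] at hlv
        obtain ⟨rfl, hju⟩ := hlv
        rw [hT, dif_pos hs, hes'] at he
        simp only [Sum.elim_inr] at he
        have hv' : v = j - w.2 := by rw [← hju]; ring
        subst hv'
        have := hu (u, V.2 + r') (by convert he using 1; ext <;> simp)
        simp only [Prod.mk.injEq] at this
        obtain ⟨rfl, hr⟩ := this
        have hr' : r' = r - V.2 := by rw [← hr]; ring
        subst hr'
        have : (⟨s, hs⟩ : {s // act s}) = s₀ := e.injective (by rw [hes', hes])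
        rw [← this]

lemma mult_cast [Fact (1 < a)] [Fact (1 < b)] [NeZero a] [NeZero b] (v : Val a b) :
    (mult v : ℤ) = 1 + (if v = (0, 0) then 1 else 0) + (if v = (1, 1) then 1 else 0)
      - (if v = (0, 1) then 1 else 0) - (if v = (1, 0) then 1 else 0) := by
  by_cases h : v = (0, 0) ∨ v = (1, 1)
  · have e : Finset.univ.filter (fun slot => ent slot v) = {(0, 0), (1, 1)} := by
      ext slot
      rcases h with rfl | rfl <;>
      · simp only [ent, Finset.mem_filter, Finset.mem_univ, true_and, Finset.mem_insert,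
          Finset.mem_singleton, ne_eq]
        split_ifs with hs
        · simp [hs]
        · simp only [hs, iff_false, not_and]
          rintro rfl
          simp at hs
    rw [mult, e, Finset.card_pair (by simp)]
    rcases h with rfl | rfl <;> simp
  · push Not at h
    by_cases h' : v = (0, 1) ∨ v = (1, 0)
    · have e : Finset.univ.filter (fun slot => ent slot v) = ∅ := by
        ext slot
        simp only [ent, Finset.mem_filter, Finset.mem_univ, true_and, Finset.notMem_empty,
          iff_false, ne_eq]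
        split_ifs with hs
        · simp [h.1, h.2]
        · rintro ⟨rfl, h1, h2⟩
          tauto
      rw [mult, e]
      rcases h' with rfl | rfl <;> simp
    · push Not at h'
      have e : Finset.univ.filter (fun slot => ent slot v) = {v} := by
        ext slot
        simp only [ent, Finset.mem_filter, Finset.mem_univ, true_and, Finset.mem_singleton, ne_eq]
        split_ifs with hs
        · simp only [h.1, h.2, or_self, false_iff]
          rintro rfl
          simp [h.1, h.2] at hs
        · constructor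
          · exact fun hh => hh.1.symm
          · rintro rfl
            exact ⟨rfl, h'.1, h'.2⟩
      rw [mult, e]
      simp [h.1, h.2, h'.1, h'.2]

/-- If all translates of a finite family hit the table exactly as often as its size, the size is
in the semigroup generated by `a` and `b`. -/
lemma size_of_balanced [Fact (1 < a)] [Fact (1 < b)] [NeZero a] [NeZero b] {S : Type*}
    (s : Finset S) (F : S → Val a b) (h : ∀ V, ∑ x ∈ s, mult (V + F x) = s.card) :
    ∃ α β : ℕ, s.card = α * a + β * b := by
  classical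
  obtain ⟨f, hf⟩ : ∃ f : Val a b → ℕ, ∀ v, f v = (s.filter fun x => F x = v).card :=
    ⟨_, fun _ => rfl⟩
  have sq : ∀ r c, f (r, c) + f (r + 1, c + 1) = f (r, c + 1) + f (r + 1, c) := by
    intro r c
    have hh := congrArg (Nat.cast : ℕ → ℤ) (h (-(r, c)))
    push_cast at hh
    simp only [mult_cast, Finset.sum_add_distrib, Finset.sum_sub_distrib, Finset.sum_const,
      nsmul_eq_mul, mul_one, Finset.sum_boole] at hh
    have e : ∀ p q, (s.filter fun x => -(r, c) + F x = (p, q)) =
        s.filter fun x => F x = (r + p, c + q) := by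
      intro p q
      refine Finset.filter_congr fun x _ => ?_
      rw [neg_add_eq_iff_eq_add]
      rfl
    simp only [e, add_zero] at hh
    simp only [hf]
    omega
  have rowdiff : ∀ r c, (f (r + 1, c) : ℤ) - f (r, c) = f (r + 1, 0) - f (r, 0) := by
    intro r c
    obtain ⟨n, rfl⟩ := ZMod.natCast_zmod_surjective c
    induction n with
    | zero => simp
    | succ n ih =>
      have := sq r n
      push_cast
      omega
  have sep : ∀ r c, (f (r, c) : ℤ) = f (r, 0) + f (0, c) - f (0, 0) := by
    intro r c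
    obtain ⟨n, rfl⟩ := ZMod.natCast_zmod_surjective r
    induction n with
    | zero => simp
    | succ n ih =>
      have := rowdiff (n : ZMod a) c
      push_cast
      omega
  obtain ⟨r₀, -, hr₀⟩ := Finset.exists_min_image Finset.univ (fun r : ZMod a => f (r, 0))
    Finset.univ_nonempty
  have split : ∀ v : Val a b, f v = (f (v.1, 0) - f (r₀, 0)) + f (r₀, v.2) := by
    intro v
    have h1 : (f v : ℤ) = _ := sep v.1 v.2
    have := sep r₀ v.2
    have := hr₀ v.1 (Finset.mem_univ _)
    omega
  refine ⟨∑ c, f (r₀, c), ∑ r, (f (r, 0) - f (r₀, 0)), ?_⟩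
  have hc : s.card = ∑ v : Val a b, f v := by
    simp only [hf]
    exact Finset.card_eq_sum_card_fiberwise fun x _ => Finset.mem_univ (F x)
  rw [hc, Finset.sum_congr rfl fun v _ => split v]
  simp only [Finset.sum_add_distrib, Fintype.sum_prod_type,
    Finset.sum_const, Finset.card_univ, ZMod.card, smul_eq_mul]
  rw [← Finset.mul_sum]
  ring

end Vale.Agent.P043.D3
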