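import Mathlib

/-!
P043, dimension three: moduli, their idempotent shifts, and the twists.
-/

namespace Vale.Agent.P043.D3

/-- indices of moduli: three for each variable, and `4`, `7` -/
abbrev Md (ι : Type) : Type := (ι × Fin 3) ⊕ Fin 2

/-- the modulus of an index -/
def moOf {ι : Type} (A B P Q : ι → ℕ) : Md ι → ℕ
  | Sum.inl (i, k) => if k = 0 then A i * B i else if k = 1 then P i else Q i
  | Sum.inr k => if k = 0 then 4 else 7

/-- The numerical data: for each variable a pair `A, B` and two window lengths `P, Q`. -/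
structure Par (ι : Type) [Fintype ι] (i₀ : ι) where
  R : ℕ
  A : ι → ℕ
  B : ι → ℕ
  P : ι → ℕ
  Q : ι → ℕ
  E : Md ι → ℤ
  u : Md ι → ℤ
  A_lt : ∀ i, 1 < A i
  B_lt : ∀ i, 1 < B i
  AB_cop : ∀ i, (A i).Coprime (B i)
  P_dec : ∀ i, ∃ α β, P i = α * A i + β * B i
  Q_dec : ∀ i, ∃ α β, Q i = α * A i + β * B i
  A_zero : A i₀ = 3
  B_zero : B i₀ = 5
  mo_lt : ∀ m, 1 < moOf A B P Q m
  mo_cop : ∀ m n, m ≠ n → (moOf A B P Q m).Coprime (moOf A B P Q n)
  R_eq : R = ∏ m, moOf A B P Q m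
  E_self : ∀ m, ((E m : ℤ) : ZMod (moOf A B P Q m)) = 1
  E_other : ∀ m n, m ≠ n → (moOf A B P Q n : ℤ) ^ 2 ∣ E m
  u_twist : ∀ m, ∃ t, u m * R = moOf A B P Q m + (moOf A B P Q m : ℤ) ^ 2 * t

lemma exists_decomp {a b p : ℕ} (ha : 0 < a) (hab : a.Coprime b) (hp : a * b ≤ p) :
    ∃ α β, p = α * a + β * b := by
  have : NeZero a := ⟨ha.ne'⟩
  obtain ⟨β, hβ⟩ : ∃ β : ℕ, β = ((p : ZMod a) * (b : ZMod a)⁻¹).val := ⟨_, rfl⟩
  have hlt : β < a := hβ ▸ ZMod.val_lt _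
  have hle : β * b ≤ p := le_trans (Nat.mul_le_mul_right b hlt.le) hp
  have hdvd : a ∣ p - β * b := by
    rw [← ZMod.natCast_eq_zero_iff, Nat.cast_sub hle, Nat.cast_mul, hβ, ZMod.natCast_zmod_val,
      mul_assoc, mul_comm _ (b : ZMod a), ZMod.coe_mul_inv_eq_one b hab.symm, mul_one, sub_self]
  obtain ⟨α, hα⟩ := hdvd
  exact ⟨α, β, by rw [mul_comm α, ← hα]; omega⟩

lemma exists_par (ι : Type) [Fintype ι] (i₀ : ι) : Nonempty (Par ι i₀) := by
  classical
  obtain ⟨pr, hpr⟩ : ∃ pr : ℕ → ℕ, pr = Nat.nth Nat.Prime := ⟨_, rfl⟩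
  have prime : ∀ n, (pr n).Prime := fun n => hpr ▸ Nat.prime_nth_prime n
  have mono : StrictMono pr := hpr ▸ Nat.nth_strictMono Nat.infinite_setOfPred_prime
  have prcop : ∀ m n, m ≠ n → (pr m).Coprime (pr n) := fun m n h =>
    (Nat.coprime_primes (prime m) (prime n)).2 fun e => h (mono.injective e)
  have pr3 : pr 1 = 3 := by rw [hpr]; exact Nat.nth_prime_one_eq_three
  have pr5 : pr 2 = 5 := by rw [hpr]; exact Nat.nth_prime_two_eq_five
  have pr2 : pr 0 = 2 := by rw [hpr]; exact Nat.nth_prime_zero_eq_two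
  have pr7 : pr 3 = 7 := by
    rw [hpr]; exact Nat.nth_count (p := Nat.Prime) (by norm_num : (7 : ℕ).Prime)
  obtain ⟨k, hk⟩ : ∃ k : ι → ℕ, Function.Injective k :=
    ⟨fun i => Fintype.equivFin ι i, fun i j h => (Fintype.equivFin ι).injective (Fin.ext h)⟩
  obtain ⟨ia, hia⟩ : ∃ f : ι → ℕ, ∀ i, f i = if i = i₀ then 1 else 2 * k i + 4 :=
    ⟨_, fun _ => rfl⟩
  obtain ⟨ib, hib⟩ : ∃ f : ι → ℕ, ∀ i, f i = if i = i₀ then 2 else 2 * k i + 5 :=
    ⟨_, fun _ => rfl⟩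
  obtain ⟨A, hA⟩ : ∃ A : ι → ℕ, ∀ i, A i = pr (ia i) := ⟨_, fun _ => rfl⟩
  obtain ⟨B, hB⟩ : ∃ B : ι → ℕ, ∀ i, B i = pr (ib i) := ⟨_, fun _ => rfl⟩
  obtain ⟨N₀, hN₀⟩ : ∃ N, N = ∑ i, (A i * B i + ia i + ib i) + 4 := ⟨_, rfl⟩
  have hN : ∀ i, A i * B i + ia i + ib i + 4 ≤ N₀ := by
    intro i
    rw [hN₀]
    have := Finset.single_le_sum (f := fun i => A i * B i + ia i + ib i)
      (fun j _ => Nat.zero_le _) (Finset.mem_univ i)
    omega
  obtain ⟨P, hP⟩ : ∃ P : ι → ℕ, ∀ i, P i = pr (N₀ + 2 * k i) := ⟨_, fun _ => rfl⟩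
  obtain ⟨Q, hQ⟩ : ∃ Q : ι → ℕ, ∀ i, Q i = pr (N₀ + 2 * k i + 1) := ⟨_, fun _ => rfl⟩
  have iaib : ∀ i j, ia i ≠ ib j := by
    intro i j
    rw [hia, hib]; split_ifs <;> omega
  have iainj : ∀ i j, ia i = ia j → i = j := by
    intro i j
    rw [hia, hia]; split_ifs with h1 h2 h2 <;> intro e
    · rw [h1, h2]
    · omega
    · omega
    · exact hk (by omega)
  have ibinj : ∀ i j, ib i = ib j → i = j := by
    intro i j
    rw [hib, hib]; split_ifs with h1 h2 h2 <;> intro e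
    · rw [h1, h2]
    · omega
    · omega
    · exact hk (by omega)
  have ibig : ∀ i, ia i ≠ 0 ∧ ib i ≠ 0 ∧ ia i ≠ 3 ∧ ib i ≠ 3 := by
    intro i
    rw [hia, hib]; split_ifs <;> omega
  -- prime indices occurring in a modulus
  obtain ⟨idx, hidx⟩ : ∃ idx : Md ι → Finset ℕ, ∀ m, idx m = Sum.elim
      (fun q : ι × Fin 3 => if q.2 = 0 then {ia q.1, ib q.1} else
        if q.2 = 1 then {N₀ + 2 * k q.1} else {N₀ + 2 * k q.1 + 1})
      (fun q : Fin 2 => if q = 0 then {0} else {3}) m := ⟨_, fun _ => rfl⟩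
  have disj : ∀ m n, m ≠ n → Disjoint (idx m) (idx n) := by
    intro m n hmn
    rw [hidx, hidx]
    rcases m with ⟨i, a⟩ | a <;> rcases n with ⟨j, c⟩ | c
    · have hkk : i ≠ j → k i ≠ k j := fun h e => h (hk e)
      have ni := hN i
      have nj := hN j
      fin_cases a <;> fin_cases c <;> simp at hmn ⊢ <;>
        first
          | exact ⟨⟨fun e => hmn (iainj _ _ e).symm, fun e => iaib _ _ e⟩,
              fun e => iaib _ _ e.symm, fun e => hmn (ibinj _ _ e).symm⟩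
          | (have := hkk hmn; omega)
          | omega
    · have ni := hN i
      obtain ⟨i1, i2, i3, i4⟩ := ibig i
      fin_cases a <;> fin_cases c <;> simp <;> omega
    · have nj := hN j
      obtain ⟨i1, i2, i3, i4⟩ := ibig j
      fin_cases a <;> fin_cases c <;> simp <;> omega
    · fin_cases a <;> fin_cases c <;> simp at hmn ⊢
  have hmo : ∀ m, moOf A B P Q m ∣ (∏ n ∈ idx m, pr n) ^ 2 := by
    intro m
    rw [hidx]
    rcases m with ⟨i, a⟩ | a
    · fin_cases a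
      · simp [moOf, Finset.prod_pair (iaib i i), ← hA, ← hB, pow_two]
      · simp [moOf, ← hP, pow_two]
      · simp [moOf, ← hQ, pow_two]
    · fin_cases a <;> simp [moOf, pr2, pr7]
  have cop : ∀ m n, m ≠ n → (moOf A B P Q m).Coprime (moOf A B P Q n) := by
    intro m n h
    refine (Nat.Coprime.coprime_dvd_left (hmo m) ?_).coprime_dvd_right (hmo n)
    refine Nat.Coprime.pow _ _ (Nat.Coprime.prod_left fun x hx => Nat.Coprime.prod_right
      fun y hy => prcop x y ?_)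
    rintro rfl
    exact Finset.disjoint_left.1 (disj m n h) hx hy
  have lt1 : ∀ m, 1 < moOf A B P Q m := by
    rintro (⟨i, a⟩ | a)
    · fin_cases a <;> simp only [moOf, Fin.zero_eta, Fin.mk_one, Fin.reduceFinMk, ↓reduceIte,
        Fin.reduceEq, hP, hQ]
      · rw [hA, hB]; exact Nat.lt_of_lt_of_le (prime _).one_lt
          (Nat.le_mul_of_pos_right _ (prime _).pos)
      · exact (prime _).one_lt
      · exact (prime _).one_lt
    · fin_cases a <;> simp [moOf]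
  obtain ⟨R, hR⟩ : ∃ R, R = ∏ m, moOf A B P Q m := ⟨_, rfl⟩
  have inv : ∀ (m : Md ι) (X : ℕ), X.Coprime (moOf A B P Q m) →
      ∃ e : ℤ, (((e * X : ℤ) : ℤ) : ZMod (moOf A B P Q m)) = 1 := by
    intro m X hX
    obtain ⟨e, he⟩ := ZMod.intCast_surjective ((X : ZMod (moOf A B P Q m))⁻¹)
    refine ⟨e, ?_⟩
    push_cast
    rw [he, mul_comm, ZMod.coe_mul_inv_eq_one X hX]
  have copE : ∀ m, (∏ n ∈ Finset.univ.erase m, moOf A B P Q n).Coprime (moOf A B P Q m) :=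
    fun m => Nat.Coprime.prod_left fun n hn => cop n m (Finset.mem_erase.1 hn).1
  choose e he using fun m => inv m ((∏ n ∈ Finset.univ.erase m, moOf A B P Q n) ^ 2)
    ((copE m).pow_left 2)
  choose v hv using fun m => inv m (∏ n ∈ Finset.univ.erase m, moOf A B P Q n) (copE m)
  have hdec : ∀ i n, N₀ ≤ n → ∃ α β, pr n = α * A i + β * B i := by
    intro i n hn
    apply exists_decomp
    · rw [hA]; exact (prime _).pos
    · rw [hA, hB]; exact prcop _ _ (iaib i i)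
    · have := hN i
      have := mono.id_le n
      simp only [id] at this
      omega
  refine ⟨⟨R, A, B, P, Q,
    fun m => e m * (((∏ n ∈ Finset.univ.erase m, moOf A B P Q n) ^ 2 : ℕ) : ℤ), v,
    fun i => hA i ▸ (prime _).one_lt, fun i => hB i ▸ (prime _).one_lt,
    fun i => by rw [hA, hB]; exact prcop _ _ (iaib i i),
    fun i => by rw [hP]; exact hdec i _ (Nat.le_add_right _ _),
    fun i => by rw [hQ]; exact hdec i _ (by omega),
    by rw [hA, hia]; simp [pr3], by rw [hB, hib]; simp [pr5],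
    lt1, cop, hR, he, ?_, ?_⟩⟩
  · intro m n hmn
    apply dvd_mul_of_dvd_right
    rw [Nat.cast_pow]
    exact pow_dvd_pow_of_dvd (Int.natCast_dvd_natCast.2
      (Finset.dvd_prod_of_mem _ (Finset.mem_erase.2 ⟨Ne.symm hmn, Finset.mem_univ n⟩))) 2
  · intro m
    have h1 := hv m
    rw [← sub_eq_zero, ← Int.cast_one, ← Int.cast_sub, ZMod.intCast_zmod_eq_zero_iff_dvd] at h1
    obtain ⟨t, ht⟩ := h1
    refine ⟨t, ?_⟩
    rw [hR, ← Finset.mul_prod_erase _ _ (Finset.mem_univ m), Nat.cast_mul]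
    linear_combination (moOf A B P Q m : ℤ) * ht

namespace Par

variable {ι : Type} [Fintype ι] {i₀ : ι} (S : Par ι i₀)

/-- the moduli -/
abbrev mo (m : Md ι) : ℕ := moOf S.A S.B S.P S.Q m

lemma dvd_R (m : Md ι) : S.mo m ∣ S.R := by
  rw [S.R_eq]; exact Finset.dvd_prod_of_mem _ (Finset.mem_univ m)

lemma R_pos : 0 < S.R := by
  rw [S.R_eq]; exact Finset.prod_pos fun m _ => Nat.zero_lt_of_lt (S.mo_lt m)

lemma sq_dvd_E {m n : Md ι} (h : m ≠ n) : (S.mo n : ℤ) ^ 2 ∣ S.E m := S.E_other m n h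

lemma dvd_E {m n : Md ι} (h : m ≠ n) : (S.mo n : ℤ) ∣ S.E m :=
  (dvd_pow_self _ two_ne_zero).trans (S.E_other m n h)

/-- simultaneous congruences modulo the squares -/
lemma crt_sq (g : Md ι → ℤ) : ∃ z : ℤ, ∀ m, (S.mo m : ℤ) ^ 2 ∣ z - g m := by
  classical
  refine ⟨∑ n, g n * (2 * S.E n - S.E n ^ 2), fun m => ?_⟩
  rw [← Finset.add_sum_erase _ _ (Finset.mem_univ m), add_sub_right_comm]
  apply dvd_add
  · have h : (S.mo m : ℤ) ∣ S.E m - 1 := by
      rw [← ZMod.intCast_zmod_eq_zero_iff_dvd, Int.cast_sub, S.E_self, Int.cast_one, sub_self]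
    obtain ⟨t, ht⟩ := h
    exact ⟨-(g m * t ^ 2), by linear_combination (-(g m) * (S.E m - 1 + (S.mo m : ℤ) * t)) * ht⟩
  · apply Finset.dvd_sum
    intro n hn
    apply dvd_mul_of_dvd_right
    have hE := S.sq_dvd_E (Finset.mem_erase.1 hn).1
    exact dvd_sub (dvd_mul_of_dvd_right hE _) (dvd_pow hE two_ne_zero)

/-- the twisted digit -/
def dig (m : Md ι) (y : ℤ) : ℤ := S.u m * y / (S.mo m : ℤ)

lemma mo_ne (m : Md ι) : (S.mo m : ℤ) ≠ 0 := by
  exact Nat.cast_ne_zero.2 (Nat.ne_of_gt (Nat.zero_lt_of_lt (S.mo_lt m)))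

lemma dig_period (m : Md ι) (y k : ℤ) :
    ((S.dig m (y + S.R * k) : ℤ) : ZMod (S.mo m)) = (S.dig m y : ZMod (S.mo m)) + k := by
  obtain ⟨t, ht⟩ := S.u_twist m
  have e : S.u m * (y + S.R * k) = S.u m * y + (S.mo m : ℤ) * (k + S.mo m * (t * k)) := by
    linear_combination k * ht
  rw [dig, e, Int.add_mul_ediv_left _ _ (S.mo_ne m), dig]
  push_cast
  rw [ZMod.natCast_self, zero_mul, add_zero]

lemma dig_add (m : Md ι) (y z : ℤ) (h : (S.mo m : ℤ) ^ 2 ∣ z) :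
    ((S.dig m (y + z) : ℤ) : ZMod (S.mo m)) = (S.dig m y : ZMod (S.mo m)) := by
  obtain ⟨t, rfl⟩ := h
  have e : S.u m * (y + (S.mo m : ℤ) ^ 2 * t)
      = S.u m * y + (S.mo m : ℤ) * ((S.mo m : ℤ) * (S.u m * t)) := by ring
  rw [dig, e, Int.add_mul_ediv_left _ _ (S.mo_ne m), dig]
  push_cast
  rw [ZMod.natCast_self, zero_mul, add_zero]

lemma crt (f : ∀ m, ZMod (S.mo m)) : ∃ z : ℤ, ∀ m, (z : ZMod (S.mo m)) = f m := by
  choose g hg using fun m => ZMod.intCast_surjective (f m)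
  obtain ⟨z, hz⟩ := S.crt_sq g
  refine ⟨z, fun m => ?_⟩
  rw [← hg m, ← sub_eq_zero, ← Int.cast_sub, ZMod.intCast_zmod_eq_zero_iff_dvd]
  exact (dvd_pow_self _ two_ne_zero).trans (hz m)

end Par

end Vale.Agent.P043.D3
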