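import Mathlib
import Vale.Agent.P043.D3.Group
import Vale.Agent.P043.D3.Layout
import Vale.Agent.P043.D3.Params
import Vale.Agent.P043.D3.Clock

/-!
P043, dimension three: a finite system of tiling equations in `ℤ² × ℤ/R²`.

Each bit `i` has a value in `ℤ/A × ℤ/B`. The bit is true when the value ignores the window
coordinate `P i`, and its negation reads `Q i`. One counting equation for each bit forbids that
both coordinates are ignored.
-/

namespace Vale.Agent.P043.D3

open Vale.Agent.P043 (EqSol invShift invPiece inv_iff inv_iterate orShift orPiece or_iff)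

variable (S : Par Var vb)

instance varTripleDecEq : DecidableEq (Var × Fin 3) := inferInstance

instance mdDecEq : DecidableEq (Md Var) := fun a b => by
  cases a with
  | inl a => cases b with
    | inl b => exact decidable_of_iff (a = b) (by simp)
    | inr b => exact .isFalse (by simp)
  | inr a => cases b with
    | inl b => exact .isFalse (by simp)
    | inr b => exact decidable_of_iff (a = b) (by simp)

/-- index of the modulus of the pair of a bit -/
abbrev mJ (i : Var) : Md Var := Sum.inl (i, 0)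

/-- index of the first window of a bit -/
abbrev mP (i : Var) : Md Var := Sum.inl (i, 1)

/-- index of the second window of a bit -/
abbrev mQ (i : Var) : Md Var := Sum.inl (i, 2)

/-- a modulus that is not one of those of a bit -/
def Foreign (i : Var) (n : Md Var) : Prop := n ≠ mJ i ∧ n ≠ mP i ∧ n ≠ mQ i

instance factA (i : Var) : Fact (1 < S.A i) := ⟨S.A_lt i⟩

instance factB (i : Var) : Fact (1 < S.B i) := ⟨S.B_lt i⟩

instance neA (i : Var) : NeZero (S.A i) := ⟨Nat.ne_of_gt (Nat.zero_lt_of_lt (S.A_lt i))⟩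

instance neB (i : Var) : NeZero (S.B i) := ⟨Nat.ne_of_gt (Nat.zero_lt_of_lt (S.B_lt i))⟩

instance neR : NeZero S.R := ⟨Nat.ne_of_gt S.R_pos⟩

/-- the component of a modulus -/
def prj (m : Md Var) : Fib S.R →+ ZMod (S.mo m) :=
  (ZMod.castHom (S.dvd_R m) (ZMod (S.mo m))).toAddMonoidHom

lemma prj_int (m : Md Var) (z : ℤ) : prj S m (z : ZMod S.R) = (z : ZMod (S.mo m)) := by
  simp [prj]

/-- a pair of residues from a residue of the product -/
def toPair (i : Var) : ZMod (S.mo (mJ i)) →+ Val (S.A i) (S.B i) :=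
  (ZMod.castHom (dvd_mul_right (S.A i) (S.B i)) (ZMod (S.A i))).toAddMonoidHom.prod
    (ZMod.castHom (dvd_mul_left (S.B i) (S.A i)) (ZMod (S.B i))).toAddMonoidHom

lemma toPair_int (i : Var) (z : ℤ) :
    toPair S i (z : ZMod (S.mo (mJ i))) = ((z : ZMod (S.A i)), (z : ZMod (S.B i))) :=
  Prod.ext (map_intCast (ZMod.castHom (dvd_mul_right (S.A i) (S.B i)) (ZMod (S.A i))) z)
    (map_intCast (ZMod.castHom (dvd_mul_left (S.B i) (S.A i)) (ZMod (S.B i))) z)

lemma toPair_surj (i : Var) : Function.Surjective (toPair S i) := by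
  intro v
  obtain ⟨w, hw⟩ : ∃ w, ZMod.chineseRemainder (S.AB_cop i) w = v :=
    (ZMod.chineseRemainder (S.AB_cop i)).surjective v
  obtain ⟨z, rfl⟩ := ZMod.intCast_surjective w
  refine ⟨(z : ZMod (S.mo (mJ i))), ?_⟩
  rw [toPair_int, ← hw, map_intCast]
  rfl

/-- the value of a bit -/
def pj (i : Var) : Fib S.R →+ Val (S.A i) (S.B i) := (toPair S i).comp (prj S (mJ i))

/-- the colours of the counting equation of a bit -/
def colN (i : Var) : Fib S.R →+ ZMod (S.mo (mP i)) × ZMod (S.mo (mQ i)) :=
  (prj S (mP i)).prod (prj S (mQ i))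

/-- the colours of the equation along the rows of the mask -/
def colA : Fib S.R →+ ZMod (S.mo (Sum.inr 0)) × ZMod (S.mo (mP vb)) :=
  (prj S (Sum.inr 0)).prod (prj S (mP vb))

/-- the colours of the equation along the columns of the mask -/
def colB : Fib S.R →+ ZMod (S.mo (Sum.inr 1)) × ZMod (S.mo (mQ vb)) :=
  (prj S (Sum.inr 1)).prod (prj S (mQ vb))

lemma prj_joint {n : ℕ} (m : Fin n → Md Var) (hm : Function.Injective m)
    (f : ∀ k, ZMod (S.mo (m k))) : ∃ g, ∀ k, prj S (m k) g = f k := by
  classical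
  obtain ⟨z, hz⟩ := S.crt (fun d => if h : ∃ k, m k = d then h.choose_spec ▸ f h.choose else 0)
  refine ⟨(z : ZMod S.R), fun k => ?_⟩
  have h : ∃ k', m k' = m k := ⟨k, rfl⟩
  rw [prj_int, hz, dif_pos h]
  generalize h.choose_spec = e
  generalize h.choose = k' at e
  obtain rfl := hm e
  rfl

lemma joint_three (i : Var) (m n : Md Var) (h1 : mJ i ≠ m) (h2 : mJ i ≠ n) (h3 : m ≠ n)
    (v : Val (S.A i) (S.B i)) (c : ZMod (S.mo m) × ZMod (S.mo n)) :
    ∃ g, pj S i g = v ∧ ((prj S m).prod (prj S n)) g = c := by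
  obtain ⟨w, rfl⟩ := toPair_surj S i v
  obtain ⟨zw, rfl⟩ := ZMod.intCast_surjective w
  obtain ⟨z1, hz1⟩ := ZMod.intCast_surjective c.1
  obtain ⟨z2, hz2⟩ := ZMod.intCast_surjective c.2
  obtain ⟨z, hz⟩ := S.crt (fun d => if d = mJ i then (zw : ZMod (S.mo d))
    else if d = m then (z1 : ZMod (S.mo d)) else (z2 : ZMod (S.mo d)))
  refine ⟨(z : ZMod S.R), ?_, ?_⟩
  · simp [pj, prj_int, hz]
  · apply Prod.ext
    · simp [prj_int, hz, h1.symm, hz1]
    · simp [prj_int, hz, h2.symm, h3.symm, hz2]

/-- the shift read by a literal: the negative literal reads the second window -/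
def eS (i : Var) (pol : Bool) : ℤ := S.E (if pol then mQ i else mP i)

/-- the lateral shift of an incidence -/
noncomputable def nu (i : Var) (k l : ℕ) (slot : Val (S.A i) (S.B i)) : ℤ :=
  (S.crt_sq fun d => if d = mJ i then
      (ZMod.intCast_surjective (Classical.choose (toPair_surj S i slot))).choose
    else (k : ℤ) * S.E (mP i) + (l : ℤ) * S.E (mQ i)).choose

lemma nu_spec (i : Var) (k l : ℕ) (slot : Val (S.A i) (S.B i)) :
    ((nu S i k l slot : ZMod (S.A i)), (nu S i k l slot : ZMod (S.B i))) = slot ∧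
    ∀ d, d ≠ mJ i → (S.mo d : ℤ) ^ 2 ∣ nu S i k l slot - (k * S.E (mP i) + l * S.E (mQ i)) := by
  have h := Exists.choose_spec (S.crt_sq fun d => if d = mJ i then
      (ZMod.intCast_surjective (Classical.choose (toPair_surj S i slot))).choose
    else (k : ℤ) * S.E (mP i) + (l : ℤ) * S.E (mQ i))
  rw [← nu] at h
  constructor
  · have hJ := h (mJ i)
    rw [if_pos rfl] at hJ
    have e : (nu S i k l slot : ZMod (S.mo (mJ i)))
        = Classical.choose (toPair_surj S i slot) := by
      rw [← (ZMod.intCast_surjective (Classical.choose (toPair_surj S i slot))).choose_spec,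
        ← sub_eq_zero, ← Int.cast_sub, ZMod.intCast_zmod_eq_zero_iff_dvd]
      exact (dvd_pow_self _ two_ne_zero).trans hJ
    rw [← toPair_int, e, Classical.choose_spec (toPair_surj S i slot)]
  · intro d hd
    have hd' := h d
    rwa [if_neg hd] at hd'

/-- shifts of the counting equation of a bit -/
noncomputable def shN (i : Var) (j : Fin (S.P i) × Fin (S.Q i) × Val (S.A i) (S.B i)) :
    (ℤ × ℤ) × ℤ :=
  (nu S i j.1 j.2.1 j.2.2 • vdir i, (j.1 : ℕ) * S.E (mP i) + (j.2.1 : ℕ) * S.E (mQ i))

/-- shifts of the equation along the rows of the mask -/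
noncomputable def shA (j : Fin 4 × Fin (S.P vb) × Val (S.A vb) (S.B vb)) : (ℤ × ℤ) × ℤ :=
  (((0 : ℤ), 7 * ((j.1 : ℕ) : ℤ)) + nu S vb j.2.1 0 j.2.2 • vdir vb, (j.2.1 : ℕ) * S.E (mP vb))

/-- shifts of the equation along the columns of the mask -/
noncomputable def shB (j : Fin 7 × Fin (S.Q vb) × Val (S.A vb) (S.B vb)) : (ℤ × ℤ) × ℤ :=
  (((0 : ℤ), 4 * ((j.1 : ℕ) : ℤ)) + nu S vb 0 j.2.1 j.2.2 • vdir vb, (j.2.1 : ℕ) * S.E (mQ vb))

/-- pieces of the counting equation of a bit -/
def pcN (i : Var) : Fin (S.P i) × Fin (S.Q i) × Val (S.A i) (S.B i) → Fib S.R → Prop :=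
  countPiece (pj S i) (colN S i) fun j v => ent j.2.2 v

/-- pieces of the equation along the rows of the mask -/
def pcA : Fin 4 × Fin (S.P vb) × Val (S.A vb) (S.B vb) → Fib S.R → Prop :=
  countPiece (pj S vb) (colA S) fun j v => ent j.2.2 v

/-- pieces of the equation along the columns of the mask -/
def pcB : Fin 7 × Fin (S.Q vb) × Val (S.A vb) (S.B vb) → Fib S.R → Prop :=
  countPiece (pj S vb) (colB S) fun j v => ent j.2.2 v

/-- the number of literals of a clause, less one -/
noncomputable def nV : ℕ := Fintype.card Var - 1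

/-- the bits in a list -/
noncomputable def enumV : Fin (nV + 1) ≃ Var :=
  (finCongr (by have : 0 < Fintype.card Var := Fintype.card_pos; unfold nV; omega)).trans
    (Fintype.equivFin Var).symm

/-- the two mask bits -/
def pairBC (k : Fin 2) : Var := Sum.inr (Sum.inr k)

/-- the forbidden vectors -/
def Forb : Type := {τ : Var → Bool // ¬ Rel28 τ}

/-- equation names -/
inductive Eqn : Type
  | base
  | indep (i : Var) (n : {n : Md Var // Foreign i n})
  | dir (i : Var)
  | nand (i : Var)
  | rows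
  | cols
  | pairs (pol : Bool)
  | forb (τ : Forb)

instance : Finite Forb := by unfold Forb; infer_instance

instance : Finite Eqn := by
  refine Finite.of_surjective
    (fun s : (Σ i : Var, {n : Md Var // Foreign i n}) ⊕ Var ⊕ Var ⊕ Fin 3 ⊕ Bool ⊕ Forb =>
      (match s with
      | .inl p => Eqn.indep p.1 p.2
      | .inr (.inl i) => .dir i
      | .inr (.inr (.inl i)) => .nand i
      | .inr (.inr (.inr (.inl k))) => if k = 0 then .base else if k = 1 then .rows else .cols
      | .inr (.inr (.inr (.inr (.inl b)))) => .pairs b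
      | .inr (.inr (.inr (.inr (.inr τ)))) => .forb τ : Eqn)) ?_
  intro e
  cases e with
  | base => exact ⟨.inr (.inr (.inr (.inl 0))), rfl⟩
  | indep i n => exact ⟨.inl ⟨i, n⟩, rfl⟩
  | dir i => exact ⟨.inr (.inl i), rfl⟩
  | nand i => exact ⟨.inr (.inr (.inl i)), rfl⟩
  | rows => exact ⟨.inr (.inr (.inr (.inl 1))), rfl⟩
  | cols => exact ⟨.inr (.inr (.inr (.inl 2))), rfl⟩
  | pairs b => exact ⟨.inr (.inr (.inr (.inr (.inl b)))), rfl⟩
  | forb τ => exact ⟨.inr (.inr (.inr (.inr (.inr τ)))), rfl⟩

/-- cell indices of an equation -/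
def Idx : Eqn → Type
  | .base => Fib S.R
  | .indep i _ => Σ j, {w // invPiece (pj S i) 0 j w}
  | .dir i => Σ j, {w // invPiece (pj S i) 0 j w}
  | .nand i => Σ j, {w // pcN S i j w}
  | .rows => Σ j, {w // pcA S j w}
  | .cols => Σ j, {w // pcB S j w}
  | .pairs _ => Σ ε, {w // orPiece (fun k => pj S (pairBC k)) 0 ε w}
  | .forb _ => Σ ε, {w // orPiece (fun k => pj S (enumV k)) 0 ε w}

/-- cells of an equation -/
noncomputable def eqCells : ∀ q, Idx S q → Gam S.R
  | .base => fun g => emb S.R g
  | .indep i n => cells S.R (invShift 0 (S.E n.1)) (invPiece (pj S i) 0)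
  | .dir i => cells S.R (invShift (vdir i) 0) (invPiece (pj S i) 0)
  | .nand i => cells S.R (shN S i) (pcN S i)
  | .rows => cells S.R (shA S) (pcA S)
  | .cols => cells S.R (shB S) (pcB S)
  | .pairs pol => cells S.R (orShift fun k => eS S (pairBC k) pol)
      (orPiece (fun k => pj S (pairBC k)) 0)
  | .forb τ => cells S.R (orShift fun k => eS S (enumV k) (τ.1 (enumV k)))
      (orPiece (fun k => pj S (enumV k)) 0)

instance (q : Eqn) : Finite (Idx S q) := by
  cases q <;> unfold Idx <;> infer_instance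

/-- a literal at a point -/
def Lit (a : ℤ × ℤ → ℤ → Fib S.R) (i : Var) (pol : Bool) (x : ℤ × ℤ) (y : ℤ) : Prop :=
  pj S i (a x (y + eS S i pol)) = pj S i (a x y)

/-- everything a section has to satisfy -/
structure Cond (a : ℤ × ℤ → ℤ → Fib S.R) : Prop where
  cov : ∀ x y (k : ℤ), a x (y + S.R * k) = a x y + (k : ZMod S.R)
  indep : ∀ i n, Foreign i n → ∀ x y, pj S i (a x (y + S.E n)) = pj S i (a x y)
  dir : ∀ i x y, pj S i (a (x + vdir i) y) = pj S i (a x y)
  nand : ∀ i x y V l, ∃! j, ent (j : Fin (S.P i) × Fin (S.Q i) × Val (S.A i) (S.B i)).2.2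
      (V + pj S i (a (x + (shN S i j).1) (y + (shN S i j).2))) ∧
    colN S i (a (x + (shN S i j).1) (y + (shN S i j).2)) = l
  rows : ∀ x y V l, ∃! j, ent (j : Fin 4 × Fin (S.P vb) × Val (S.A vb) (S.B vb)).2.2
      (V + pj S vb (a (x + (shA S j).1) (y + (shA S j).2))) ∧
    colA S (a (x + (shA S j).1) (y + (shA S j).2)) = l
  cols : ∀ x y V l, ∃! j, ent (j : Fin 7 × Fin (S.Q vb) × Val (S.A vb) (S.B vb)).2.2
      (V + pj S vb (a (x + (shB S j).1) (y + (shB S j).2))) ∧
    colB S (a (x + (shB S j).1) (y + (shB S j).2)) = l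
  pairs : ∀ pol x y, ∃ k, Lit S a (pairBC k) pol x y
  forb : ∀ (τ : Forb) x y, ∃ i, Lit S a i (τ.1 i) x y

lemma clause_iff {n : ℕ} (l : Fin (n + 1) → Var) (hl : Function.Injective l)
    (pol : Fin (n + 1) → Bool) (a : ℤ × ℤ → ℤ → Fib S.R)
    (hind : ∀ i d, Foreign i d → ∀ x y, pj S i (a x (y + S.E d)) = pj S i (a x y)) :
    EqSol a (orShift (X := ℤ × ℤ) fun k => eS S (l k) (pol k))
        (orPiece (fun k => pj S (l k)) 0) ↔
      ∀ x y, ∃ k, Lit S a (l k) (pol k) x y := by
  classical
  rw [or_iff (fun k => pj S (l k)) 0 (fun k => eS S (l k) (pol k)) a]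
  · simp [Lit, sub_eq_zero]
  · intro ε i x y
    have key : ∀ s : Finset (Fin (n + 1)), i ∉ s →
        pj S (l i) (a x (y + (if ε i then eS S (l i) (pol i) else 0)
          + ∑ k ∈ s, if ε k then eS S (l k) (pol k) else 0))
        = pj S (l i) (a x (y + if ε i then eS S (l i) (pol i) else 0)) := by
      intro s
      induction s using Finset.induction_on with
      | empty => simp
      | @insert k s hk ih =>
        intro his
        rw [Finset.mem_insert, not_or] at his
        rw [Finset.sum_insert hk]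
        cases ε k
        · simpa using ih his.2
        · simp only [↓reduceIte]
          rw [add_left_comm, add_comm (eS S (l k) (pol k)),
            show eS S (l k) (pol k) = S.E (if pol k then mQ (l k) else mP (l k)) from rfl, hind,
            ih his.2]
          have hne : l i ≠ l k := fun e => his.1 (hl e)
          cases pol k <;> simp [Foreign, hne.symm]
    rw [← Finset.add_sum_erase _ _ (Finset.mem_univ i), ← add_assoc]
    exact key _ (Finset.notMem_erase _ _)
  · intro f
    have hh := fun k => toPair_surj S (l k) (f k)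
    choose w hw using hh
    obtain ⟨g, hg⟩ := prj_joint S (fun k => mJ (l k))
      (fun k k' e => hl (by simpa using e)) w
    exact ⟨g, fun k => by simp [pj, hg, hw]⟩

lemma nand_joint (i : Var) (v : Val (S.A i) (S.B i)) (c : _) :
    ∃ g, pj S i g = v ∧ colN S i g = c :=
  joint_three S i (mP i) (mQ i) (by simp) (by simp) (by simp) v c

lemma rows_joint (v : Val (S.A vb) (S.B vb)) (c : _) :
    ∃ g, pj S vb g = v ∧ colA S g = c :=
  joint_three S vb (Sum.inr 0) (mP vb) (by simp) (by simp) (by simp) v c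

lemma cols_joint (v : Val (S.A vb) (S.B vb)) (c : _) :
    ∃ g, pj S vb g = v ∧ colB S g = c :=
  joint_three S vb (Sum.inr 1) (mQ vb) (by simp) (by simp) (by simp) v c

lemma covers_iff_cond {A : Set (Gam S.R)} {a : ℤ × ℤ → ℤ → Fib S.R} (ha : HasSection S.R A a) :
    (∀ q, Covers A (eqCells S q)) ↔ Cond S a := by
  have pinj : Function.Injective pairBC := fun k l h => by simpa [pairBC] using h
  constructor
  · intro h
    have hind : ∀ i n, Foreign i n → ∀ x y, pj S i (a x (y + S.E n)) = pj S i (a x y) := by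
      intro i n hn x y
      have := (inv_iff _ _ _ _ _).1 ((covers_cells_iff S.R ha _ _).1 (h (.indep i ⟨n, hn⟩))) x y
      simpa using this
    refine ⟨section_cov S.R ha, hind, fun i x y => ?_, fun i => ?_, ?_, ?_, fun pol x y => ?_,
      fun τ x y => ?_⟩
    · have := (inv_iff _ _ _ _ _).1 ((covers_cells_iff S.R ha _ _).1 (h (.dir i))) x y
      simpa using this
    · exact (count_iff _ _ _ (nand_joint S i) _ _).1 ((covers_cells_iff S.R ha _ _).1 (h (.nand i)))
    · exact (count_iff _ _ _ (rows_joint S) _ _).1 ((covers_cells_iff S.R ha _ _).1 (h .rows))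
    · exact (count_iff _ _ _ (cols_joint S) _ _).1 ((covers_cells_iff S.R ha _ _).1 (h .cols))
    · exact (clause_iff S pairBC pinj (fun _ => pol) a hind).1
        ((covers_cells_iff S.R ha _ _).1 (h (.pairs pol))) x y
    · obtain ⟨k, hk⟩ := (clause_iff S enumV enumV.injective (fun k => τ.1 (enumV k)) a hind).1
        ((covers_cells_iff S.R ha _ _).1 (h (.forb τ))) x y
      exact ⟨enumV k, hk⟩
  · intro h q
    cases q with
    | base => exact (base_covers_iff S.R A).2 ⟨a, ha⟩
    | indep i n =>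
      refine (covers_cells_iff S.R ha _ _).2 ((inv_iff _ _ _ _ _).2 fun x y => ?_)
      simpa using h.indep i n.1 n.2 x y
    | dir i =>
      refine (covers_cells_iff S.R ha _ _).2 ((inv_iff _ _ _ _ _).2 fun x y => ?_)
      simpa using h.dir i x y
    | nand i =>
      exact (covers_cells_iff S.R ha _ _).2 ((count_iff _ _ _ (nand_joint S i) _ _).2 (h.nand i))
    | rows => exact (covers_cells_iff S.R ha _ _).2 ((count_iff _ _ _ (rows_joint S) _ _).2 h.rows)
    | cols => exact (covers_cells_iff S.R ha _ _).2 ((count_iff _ _ _ (cols_joint S) _ _).2 h.cols)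
    | pairs pol =>
      exact (covers_cells_iff S.R ha _ _).2
        ((clause_iff S pairBC pinj (fun _ => pol) a h.indep).2 (h.pairs pol))
    | forb τ =>
      refine (covers_cells_iff S.R ha _ _).2
        ((clause_iff S enumV enumV.injective (fun k => τ.1 (enumV k)) a h.indep).2 fun x y => ?_)
      obtain ⟨i, hi⟩ := h.forb τ x y
      obtain ⟨k, rfl⟩ := enumV.surjective i
      exact ⟨k, hi⟩

end Vale.Agent.P043.D3
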