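import Mathlib
import Vale.Agent.P043.D3.System

/-!
P043, dimension three: the system has a solution.

The bits are the intended ones. A bit that is true reads only the second window, one that is
false only the first; the values of the mask bit also carry a layout along its rows or columns.
The colours are digits, shifted by the labels of the layouts.
-/

namespace Vale.Agent.P043.D3

variable (S : Par Var vb)

instance neMo (m : Md Var) : NeZero (S.mo m) := ⟨Nat.ne_of_gt (Nat.zero_lt_of_lt (S.mo_lt m))⟩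

lemma fib_ext {g g' : Fib S.R} (h : ∀ m, prj S m g = prj S m g') : g = g' := by
  obtain ⟨z, rfl⟩ := ZMod.intCast_surjective g
  obtain ⟨z', rfl⟩ := ZMod.intCast_surjective g'
  have hR : (S.R : ℤ) ∣ z - z' := by
    rw [S.R_eq, Nat.cast_prod]
    apply Finset.prod_dvd_of_coprime
    · intro m _ m' _ hmm
      exact Nat.isCoprime_iff_coprime.2 (S.mo_cop m m' hmm)
    · intro m _
      have := h m
      rw [prj_int, prj_int, ← sub_eq_zero, ← Int.cast_sub,
        ZMod.intCast_zmod_eq_zero_iff_dvd] at this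
      exact this
  rw [← sub_eq_zero, ← Int.cast_sub, ZMod.intCast_zmod_eq_zero_iff_dvd]
  exact hR

lemma castE_self (m : Md Var) : ((S.E m : ℤ) : ZMod (S.mo m)) = 1 := S.E_self m

lemma castE_other {m n : Md Var} (h : m ≠ n) : ((S.E m : ℤ) : ZMod (S.mo n)) = 0 := by
  rw [ZMod.intCast_zmod_eq_zero_iff_dvd]
  exact S.dvd_E h

lemma cast_period (m : Md Var) (y k : ℤ) :
    ((y + S.R * k : ℤ) : ZMod (S.mo m)) = (y : ZMod (S.mo m)) := by
  push_cast
  rw [(ZMod.natCast_eq_zero_iff _ _).2 (S.dvd_R m), zero_mul, add_zero]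

/-- the pair of residues of an integer -/
def pr2 (i : Var) (z : ℤ) : Val (S.A i) (S.B i) := ((z : ZMod (S.A i)), (z : ZMod (S.B i)))

lemma pr2_add (i : Var) (z z' : ℤ) : pr2 S i (z + z') = pr2 S i z + pr2 S i z' := by
  simp [pr2]

/-- an affine bijection from an initial segment to residues -/
noncomputable def eAff {n : ℕ} [NeZero n] (c u v : ZMod n) (h : u * v = 1) : Fin n ≃ ZMod n :=
  Equiv.ofBijective (fun k => c + u * ((k : ℕ) : ZMod n)) <| by
    rw [Fintype.bijective_iff_injective_and_card]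
    refine ⟨fun k l e => ?_, by simp [ZMod.card]⟩
    have e' := congrArg (fun z => v * z) (add_left_cancel e)
    simp only [← mul_assoc, mul_comm v u, h, one_mul] at e'
    have := congrArg ZMod.val e'
    rw [ZMod.val_natCast_of_lt k.2, ZMod.val_natCast_of_lt l.2] at this
    exact Fin.ext this

lemma eAff_apply {n : ℕ} [NeZero n] (c u v : ZMod n) (h : u * v = 1) (k : Fin n) :
    eAff c u v h k = c + u * ((k : ℕ) : ZMod n) := rfl

lemma exu_of_equiv {J J' : Type*} (e : J ≃ J') {F : J' → Prop} {G : J → Prop}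
    (h : ∀ j, G j ↔ F (e j)) (hF : ∃! p, F p) : ∃! j, G j := by
  obtain ⟨p, hp, hu⟩ := hF
  refine ⟨e.symm p, (h _).2 (by rwa [e.apply_symm_apply]), fun j hj => ?_⟩
  rw [← hu _ ((h j).1 hj), e.symm_apply_apply]

lemma exu_free {K X W : Type*} (z : K) {R : X × W → Prop} (h : ∃! q, R q) :
    ∃! p : K × X × W, p.1 = z ∧ R p.2 := by
  obtain ⟨q, hq, hu⟩ := h
  exact ⟨(z, q), ⟨rfl, hq⟩, fun p hp => Prod.ext hp.1 (hu _ hp.2)⟩

lemma exu_free₂ {K X W : Type*} (z : K) {R : X × W → Prop} (h : ∃! q, R q) :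
    ∃! p : X × K × W, p.2.1 = z ∧ R (p.1, p.2.2) := by
  obtain ⟨q, hq, hu⟩ := h
  refine ⟨(q.1, z, q.2), ⟨rfl, hq⟩, fun p hp => ?_⟩
  have := hu _ hp.2
  rw [← this, ← hp.1]

/-- A layout on the active elements, completed by a layout of a window on the others. -/
lemma exu_combine {a b : ℕ} {X K : Type*} (act : X → Prop) [DecidablePred act]
    (T : X → Val a b) (lab : X → Val a b → X) (h1 : ∀ s v, act (lab s v) ↔ act s)
    (h2 : ∀ s v, ¬ act s → lab s v = s)
    (h3 : ∀ V w l, act l → ∃! st : X × Val a b,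
      act st.1 ∧ ent st.2 (V + T st.1) ∧ lab st.1 (w + st.2) = l)
    (H : K → Val a b) (labK : K → Val a b → K)
    (h4 : ∀ V w l, ∃! st : K × Val a b, ent st.2 (V + H st.1) ∧ labK st.1 (w + st.2) = l)
    (C : Val a b) (D : X → Val a b) (V w : Val a b) (l1 : X) (l2 : K) :
    ∃! p : X × K × Val a b,
      ent p.2.2 (V + if act p.1 then C + T p.1 else D p.1 + H p.2.1) ∧
        lab p.1 (w + p.2.2) = l1 ∧
        (if act p.1 then p.2.1 else labK p.2.1 (w + p.2.2)) = l2 := by
  by_cases hl : act l1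
  · obtain ⟨⟨s, v⟩, ⟨hs, he, hlab⟩, hu⟩ := h3 (V + C) w l1 hl
    dsimp only at hs he hlab
    refine ⟨(s, l2, v), ⟨?_, hlab, by simp [hs]⟩, ?_⟩
    · simp only [hs, ↓reduceIte]
      rwa [← add_assoc]
    · rintro ⟨s', k', v'⟩ ⟨he', hlab', hk'⟩
      dsimp only at he' hlab' hk'
      have hs' : act s' := (h1 s' (w + v')).1 (hlab' ▸ hl)
      simp only [hs', ↓reduceIte] at he' hk'
      rw [← add_assoc] at he'
      have := hu (s', v') ⟨hs', he', hlab'⟩
      simp only [Prod.mk.injEq] at this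
      obtain ⟨rfl, rfl⟩ := this
      rw [hk']
  · obtain ⟨⟨k, v⟩, ⟨he, hlab⟩, hu⟩ := h4 (V + D l1) w l2
    dsimp only at he hlab
    refine ⟨(l1, k, v), ⟨?_, h2 _ _ hl, by simp [hl, hlab]⟩, ?_⟩
    · simp only [hl, ↓reduceIte]
      rwa [← add_assoc]
    · rintro ⟨s', k', v'⟩ ⟨he', hlab', hk'⟩
      dsimp only at he' hlab' hk'
      have hs' : ¬ act s' := fun hh => hl (hlab' ▸ (h1 s' (w + v')).2 hh)
      rw [h2 _ _ hs'] at hlab'
      subst hlab'
      simp only [hl, ↓reduceIte] at he' hk'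
      rw [← add_assoc] at he'
      have := hu (k', v') ⟨he', hk'⟩
      simp only [Prod.mk.injEq] at this
      obtain ⟨rfl, rfl⟩ := this
      rfl

lemma exists_window (i : Var) (n : ℕ) [NeZero n] (h : ∃ α β, n = α * S.A i + β * S.B i) :
    ∃ (H : ZMod n → Val (S.A i) (S.B i)) (lab : ZMod n → Val (S.A i) (S.B i) → ZMod n),
      ∀ V w l, ∃! st : ZMod n × Val (S.A i) (S.B i),
        ent st.2 (V + H st.1) ∧ lab st.1 (w + st.2) = l := by
  obtain ⟨α, β, h⟩ := h
  obtain ⟨H, lab, -, -, h3⟩ := exists_layout (a := S.A i) (b := S.B i)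
    (fun _ : ZMod n => True) ⟨α, β, by
      rw [← h, Fintype.card_congr (Equiv.subtypeUnivEquiv fun _ => trivial), ZMod.card]⟩
  exact ⟨H, lab, fun V w l => by simpa using h3 V w l trivial⟩

/-- the mask from the residues modulo 7 and modulo 4 -/
def mk2 (r s : ℕ) : Bool := decide (3 ≤ r ∧ s ≠ if r < 5 then 2 else 3)

lemma intended_vb (x : ℤ × ℤ) (n4 n7 : ℕ) (h4 : n4 = 4) (h7 : n7 = 7) :
    intended vb x = mk2 (x.2 : ZMod n7).val (x.2 : ZMod n4).val := by
  subst h4 h7
  have h28 : (((x.2 : ZMod 28).val : ℕ) : ℤ) = x.2 % (28 : ℕ) := ZMod.val_intCast _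
  have h7' : (((x.2 : ZMod 7).val : ℕ) : ℤ) = x.2 % (7 : ℕ) := ZMod.val_intCast _
  have h4' : (((x.2 : ZMod 4).val : ℕ) : ℤ) = x.2 % (4 : ℕ) := ZMod.val_intCast _
  have e7 : (x.2 : ZMod 28).val % 7 = (x.2 : ZMod 7).val := by omega
  have e4 : (x.2 : ZMod 28).val % 4 = (x.2 : ZMod 4).val := by omega
  simp [intended, mskA, mk2, e7, e4]

lemma row_card : ∀ r : ZMod 7,
    Fintype.card {s : ZMod 4 // mk2 r.val s.val = true} = 0 ∨
    Fintype.card {s : ZMod 4 // mk2 r.val s.val = true} = 3 := by decide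

lemma col_card : ∀ r : ZMod 4,
    Fintype.card {s : ZMod 7 // ¬ mk2 s.val r.val = true} = 3 ∨
    Fintype.card {s : ZMod 7 // ¬ mk2 s.val r.val = true} = 5 := by decide

lemma row_count {n4 n7 : ℕ} [NeZero n4] (h4 : n4 = 4) (h7 : n7 = 7) (r : ZMod n7) :
    ∃ α β, Fintype.card {s : ZMod n4 // mk2 r.val s.val = true} = α * 3 + β * 5 := by
  subst h4 h7
  rcases row_card r with h | h
  · exact ⟨0, 0, h⟩
  · exact ⟨1, 0, h⟩

lemma col_count {n4 n7 : ℕ} [NeZero n7] (h4 : n4 = 4) (h7 : n7 = 7) (r : ZMod n4) :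
    ∃ α β, Fintype.card {s : ZMod n7 // ¬ mk2 s.val r.val = true} = α * 3 + β * 5 := by
  subst h4 h7
  rcases col_card r with h | h
  · exact ⟨1, 0, h⟩
  · exact ⟨0, 1, h⟩

lemma exists_cond (S : Par Var vb) : ∃ a, Cond S a := by
  classical
  choose HP labP hP using fun i => exists_window S i (S.mo (mP i)) (S.P_dec i)
  choose HQ labQ hQ using fun i => exists_window S i (S.mo (mQ i)) (S.Q_dec i)
  have e4 : S.mo (Sum.inr 0) = 4 := rfl
  have e7 : S.mo (Sum.inr 1) = 7 := rfl
  choose TA labA hA1 hA2 hA3 using fun r : ZMod (S.mo (Sum.inr 1)) =>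
    exists_layout (a := S.A vb) (b := S.B vb)
      (fun s : ZMod (S.mo (Sum.inr 0)) => mk2 r.val s.val = true)
      (by rw [S.A_zero, S.B_zero]; exact row_count e4 e7 r)
  choose TB labB hB1 hB2 hB3 using fun r : ZMod (S.mo (Sum.inr 0)) =>
    exists_layout (a := S.A vb) (b := S.B vb)
      (fun s : ZMod (S.mo (Sum.inr 1)) => ¬ mk2 s.val r.val = true)
      (by rw [S.A_zero, S.B_zero]; exact col_count e4 e7 r)
  -- periodic part of the values
  obtain ⟨tm, htm⟩ : ∃ tm : ∀ i, ℤ × ℤ → Val (S.A i) (S.B i), ∀ i x, tm i x =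
      (Pi.single vb (if intended vb x then TA x.2 x.2 else TB x.2 x.2) :
        ∀ j, Val (S.A j) (S.B j)) i := ⟨_, fun _ _ => rfl⟩
  obtain ⟨per, hper⟩ : ∃ per : ∀ i, ℤ × ℤ → ℤ → Val (S.A i) (S.B i), ∀ i x y, per i x y =
      (if intended i x then HQ i y else HP i y) + tm i x := ⟨_, fun _ _ _ => rfl⟩
  choose lift hlift using fun i => toPair_surj S i
  -- the components
  obtain ⟨f, hfJ, hfP, hfQ, hf4, hf7⟩ : ∃ f : ℤ × ℤ → ℤ → ∀ m, ZMod (S.mo m),
      (∀ i x y, f x y (mJ i) = (S.dig (mJ i) y : ZMod (S.mo (mJ i))) + lift i (per i x y)) ∧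
      (∀ i x y, f x y (mP i) = -(S.dig (mP i) (lat i x - y) : ZMod (S.mo (mP i)))
        + if intended i x then (y : ZMod (S.mo (mP i))) else labP i y (pr2 S i (lat i x))) ∧
      (∀ i x y, f x y (mQ i) = -(S.dig (mQ i) (lat i x - y) : ZMod (S.mo (mQ i)))
        + if intended i x then labQ i y (pr2 S i (lat i x)) else (y : ZMod (S.mo (mQ i)))) ∧
      (∀ x y, f x y (Sum.inr 0) = -(S.dig (Sum.inr 0) (lat vb x - y) : ZMod (S.mo (Sum.inr 0)))
        + labA x.2 x.2 (pr2 S vb (lat vb x))) ∧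
      (∀ x y, f x y (Sum.inr 1) = -(S.dig (Sum.inr 1) (lat vb x - y) : ZMod (S.mo (Sum.inr 1)))
        + labB x.2 x.2 (pr2 S vb (lat vb x))) :=
    ⟨fun x y m => match m with
      | Sum.inl (i, 0) => (S.dig (mJ i) y : ZMod (S.mo (mJ i))) + lift i (per i x y)
      | Sum.inl (i, 1) => -(S.dig (mP i) (lat i x - y) : ZMod (S.mo (mP i)))
          + if intended i x then (y : ZMod (S.mo (mP i))) else labP i y (pr2 S i (lat i x))
      | Sum.inl (i, 2) => -(S.dig (mQ i) (lat i x - y) : ZMod (S.mo (mQ i)))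
          + if intended i x then labQ i y (pr2 S i (lat i x)) else (y : ZMod (S.mo (mQ i)))
      | Sum.inr 0 => -(S.dig (Sum.inr 0) (lat vb x - y) : ZMod (S.mo (Sum.inr 0)))
          + labA x.2 x.2 (pr2 S vb (lat vb x))
      | Sum.inr 1 => -(S.dig (Sum.inr 1) (lat vb x - y) : ZMod (S.mo (Sum.inr 1)))
          + labB x.2 x.2 (pr2 S vb (lat vb x)),
      fun _ _ _ => rfl, fun _ _ _ => rfl, fun _ _ _ => rfl, fun _ _ => rfl, fun _ _ => rfl⟩
  choose z hz using fun x y => S.crt (f x y)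
  obtain ⟨a, ha⟩ : ∃ a : ℤ × ℤ → ℤ → Fib S.R, ∀ x y m, prj S m (a x y) = f x y m :=
    ⟨fun x y => (z x y : ZMod S.R), fun x y m => by rw [prj_int, hz]⟩
  -- values
  have hpj : ∀ i x y, pj S i (a x y) = pr2 S i (S.dig (mJ i) y) + per i x y := by
    intro i x y
    rw [pj, AddMonoidHom.comp_apply, ha, hfJ, map_add, toPair_int, hlift, pr2]
  have tm0 : ∀ i x (n : ℤ), tm i (x + n • vdir i) = tm i x := by
    intro i x n
    by_cases hi : i = vb
    · subst hi
      have e : (x + n • vdir vb).2 = x.2 := by simp [vdir, fm]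
      simp only [htm, intended_vdir, e]
    · simp [htm, Pi.single_eq_of_ne hi]
  have per_vdir : ∀ i x (n : ℤ) y, per i (x + n • vdir i) y = per i x y := by
    intro i x n y
    rw [hper, hper, intended_vdir, tm0]
  have digJ : ∀ i y e, (S.mo (mJ i) : ℤ) ^ 2 ∣ e →
      pr2 S i (S.dig (mJ i) (y + e)) = pr2 S i (S.dig (mJ i) y) := by
    intro i y e he
    have := congrArg (toPair S i) (S.dig_add (mJ i) y e he)
    rwa [toPair_int, toPair_int] at this
  have hlit : ∀ i x y, Lit S a i (!intended i x) x y := by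
    intro i x y
    unfold Lit eS
    cases hc : intended i x
    · simp only [Bool.not_false, ↓reduceIte, hpj, hper, hc, Bool.false_eq_true]
      rw [digJ _ _ _ (S.sq_dvd_E (by simp))]
      congr 2
      simp [castE_other S (show mQ i ≠ mP i by simp)]
    · simp only [Bool.not_true, Bool.false_eq_true, ↓reduceIte, hpj, hper, hc]
      rw [digJ _ _ _ (S.sq_dvd_E (by simp))]
      congr 2
      simp [castE_other S (show mP i ≠ mQ i by simp)]
  -- digits along the incidences
  have hdigC : ∀ (i : Var) (k l : ℕ) slot (m : Md Var), m ≠ mJ i → ∀ n y : ℤ,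
      (S.dig m (n + nu S i k l slot - (y + (k * S.E (mP i) + l * S.E (mQ i)))) : ZMod (S.mo m))
        = (S.dig m (n - y) : ZMod (S.mo m)) := by
    intro i k l slot m hm n y
    rw [show n + nu S i k l slot - (y + (k * S.E (mP i) + l * S.E (mQ i)))
      = n - y + (nu S i k l slot - (k * S.E (mP i) + l * S.E (mQ i))) by ring]
    exact S.dig_add m _ _ ((nu_spec S i k l slot).2 m hm)
  have hbase : ∀ (i : Var) (k l : ℕ) slot (n : ℤ),
      pr2 S i (n + nu S i k l slot) = pr2 S i n + slot := by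
    intro i k l slot n
    rw [pr2_add]
    exact congrArg _ (nu_spec S i k l slot).1
  have hsqJ : ∀ (i : Var) (k l : ℕ),
      (S.mo (mJ i) : ℤ) ^ 2 ∣ k * S.E (mP i) + l * S.E (mQ i) := fun i k l =>
    dvd_add (dvd_mul_of_dvd_right (S.sq_dvd_E (by simp)) _)
      (dvd_mul_of_dvd_right (S.sq_dvd_E (by simp)) _)
  refine ⟨a, ⟨?cov, ?indep, ?dir, ?nand, ?rows, ?cols, ?pairs, ?forb⟩⟩
  case cov =>
    intro x y k
    refine fib_ext S fun m => ?_
    rw [map_add, ha, ha, prj_int]
    have negdig : ∀ (m : Md Var) (n : ℤ), -(S.dig m (n - (y + S.R * k)) : ZMod (S.mo m))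
        = -(S.dig m (n - y) : ZMod (S.mo m)) + k := by
      intro m n
      rw [show n - (y + S.R * k) = n - y + S.R * (-k) by ring, S.dig_period]
      push_cast
      ring
    rcases m with ⟨i, t⟩ | t
    · fin_cases t
      · show f x (y + S.R * k) (mJ i) = f x y (mJ i) + _
        rw [hfJ, hfJ, S.dig_period, hper, hper, cast_period, cast_period]
        exact add_right_comm _ _ _
      · show f x (y + S.R * k) (mP i) = f x y (mP i) + _
        rw [hfP, hfP, cast_period, negdig]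
        exact add_right_comm _ _ _
      · show f x (y + S.R * k) (mQ i) = f x y (mQ i) + _
        rw [hfQ, hfQ, cast_period, negdig]
        exact add_right_comm _ _ _
    · fin_cases t
      · show f x (y + S.R * k) (Sum.inr 0) = f x y (Sum.inr 0) + _
        rw [hf4, hf4, negdig]
        exact add_right_comm _ _ _
      · show f x (y + S.R * k) (Sum.inr 1) = f x y (Sum.inr 1) + _
        rw [hf7, hf7, negdig]
        exact add_right_comm _ _ _
  case indep =>
    intro i n hn x y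
    rw [hpj, hpj, digJ _ _ _ (S.sq_dvd_E hn.1), hper, hper]
    simp [castE_other S hn.2.1, castE_other S hn.2.2]
  case dir =>
    intro i x y
    have := per_vdir i x 1 y
    rw [one_smul] at this
    rw [hpj, hpj, this]
  case pairs =>
    intro pol x y
    have h0 := hlit (pairBC 0) x y
    have h1 := hlit (pairBC 1) x y
    have e : intended (pairBC 1) x = !intended (pairBC 0) x := by simp [intended, pairBC]
    rw [e, Bool.not_not] at h1
    cases pol <;> cases hc : intended (pairBC 0) x <;> rw [hc] at h0 h1 <;>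
      first | exact ⟨0, h0⟩ | exact ⟨1, h1⟩
  case forb =>
    intro τ x y
    obtain ⟨i, hi⟩ : ∃ i, τ.1 i ≠ intended i x := by
      by_contra hh
      push Not at hh
      apply τ.2
      rw [show τ.1 = fun i => intended i x from funext hh]
      exact rel28_intended x
    refine ⟨i, ?_⟩
    rw [show τ.1 i = !intended i x by revert hi; cases τ.1 i <;> cases intended i x <;> simp]
    exact hlit i x y
  case nand =>
    intro i x y V l
    obtain ⟨lP, lQ⟩ := l
    refine exu_of_equiv ((eAff (y : ZMod (S.mo (mP i))) 1 1 (one_mul 1)).prodCongr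
      ((eAff (y : ZMod (S.mo (mQ i))) 1 1 (one_mul 1)).prodCongr (Equiv.refl _)))
      (F := fun p => if intended i x then
        p.1 = lP + S.dig (mP i) (lat i x - y) ∧
          (ent p.2.2 (V + (pr2 S i (S.dig (mJ i) y) + tm i x) + HQ i p.2.1) ∧
            labQ i p.2.1 (pr2 S i (lat i x) + p.2.2) = lQ + S.dig (mQ i) (lat i x - y))
      else
        p.2.1 = lQ + S.dig (mQ i) (lat i x - y) ∧
          (ent p.2.2 (V + (pr2 S i (S.dig (mJ i) y) + tm i x) + HP i p.1) ∧
            labP i p.1 (pr2 S i (lat i x) + p.2.2) = lP + S.dig (mP i) (lat i x - y))) ?_ ?_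
    · rintro ⟨k, k', slot⟩
      simp only [shN, Equiv.prodCongr_apply, Prod.map_apply, Equiv.refl_apply, eAff_apply,
        one_mul, colN, AddMonoidHom.prod_apply, Prod.mk.injEq, ha, hfP, hfQ, hpj, hper, tm0,
        intended_vdir, lat_vdir, hdigC i k k' slot (mP i) (by simp),
        hdigC i k k' slot (mQ i) (by simp), digJ i y _ (hsqJ i k k'), hbase]
      cases intended i x
      · simp only [Bool.false_eq_true, ↓reduceIte, neg_add_eq_iff_eq_add, Int.cast_add,
          Int.cast_mul, Int.cast_natCast, castE_self,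
          castE_other S (show mP i ≠ mQ i by simp),
          castE_other S (show mQ i ≠ mP i by simp), mul_zero, mul_one, add_zero, zero_add]
        rw [show V + (pr2 S i (S.dig (mJ i) y) + (HP i ((y : ZMod (S.mo (mP i))) + (k : ℕ))
            + tm i x)) = V + (pr2 S i (S.dig (mJ i) y) + tm i x)
            + HP i ((y : ZMod (S.mo (mP i))) + (k : ℕ)) by abel,
          add_comm lP, add_comm lQ]
        tauto
      · simp only [↓reduceIte, neg_add_eq_iff_eq_add, Int.cast_add,
          Int.cast_mul, Int.cast_natCast, castE_self,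
          castE_other S (show mP i ≠ mQ i by simp),
          castE_other S (show mQ i ≠ mP i by simp), mul_zero, mul_one, add_zero, zero_add]
        rw [show V + (pr2 S i (S.dig (mJ i) y) + (HQ i ((y : ZMod (S.mo (mQ i))) + (k' : ℕ))
            + tm i x)) = V + (pr2 S i (S.dig (mJ i) y) + tm i x)
            + HQ i ((y : ZMod (S.mo (mQ i))) + (k' : ℕ)) by abel,
          add_comm lP, add_comm lQ]
        tauto
    · cases intended i x
      · simp only [Bool.false_eq_true, ↓reduceIte]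
        exact exu_free₂ _ (hP i _ _ _)
      · simp only [↓reduceIte]
        exact exu_free _ (hQ i _ _ _)
  case rows =>
    intro x y V l
    obtain ⟨l4, lP⟩ := l
    obtain ⟨r, hr⟩ : ∃ r : ZMod (S.mo (Sum.inr 1)), r = x.2 := ⟨_, rfl⟩
    refine exu_of_equiv ((eAff (x.2 : ZMod (S.mo (Sum.inr 0))) 7 3
        (by show (7 : ZMod 4) * 3 = 1; decide)).prodCongr
      ((eAff (y : ZMod (S.mo (mP vb))) 1 1 (one_mul 1)).prodCongr (Equiv.refl _))) ?_
      (exu_combine (fun s => mk2 r.val s.val = true) (TA r) (labA r) (hA1 r) (hA2 r) (hA3 r)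
        (HP vb) (labP vb) (hP vb) (pr2 S vb (S.dig (mJ vb) y) + HQ vb y)
        (fun s => pr2 S vb (S.dig (mJ vb) y) + TB s r) V (pr2 S vb (lat vb x))
        (l4 + S.dig (Sum.inr 0) (lat vb x - y)) (lP + S.dig (mP vb) (lat vb x - y)))
    rintro ⟨j, k, slot⟩
    have hlat : lat vb (x + ((0 : ℤ), 7 * ((j : ℕ) : ℤ))) = lat vb x := by simp [lat, fm]
    have hx2 : ∀ n : ℤ, (x + (((0 : ℤ), 7 * ((j : ℕ) : ℤ)) + n • vdir vb)).2
        = x.2 + 7 * ((j : ℕ) : ℤ) := by intro n; simp [vdir, fm]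
    have hr7 : ((x.2 + 7 * ((j : ℕ) : ℤ) : ℤ) : ZMod (S.mo (Sum.inr 1))) = r := by
      rw [hr, Int.cast_add, Int.cast_mul,
        show ((7 : ℤ) : ZMod (S.mo (Sum.inr 1))) = 0 by show ((7 : ℤ) : ZMod 7) = 0; decide,
        zero_mul, add_zero]
    have hnu : (k : ℕ) * S.E (mP vb) = (k : ℕ) * S.E (mP vb) + ((0 : ℕ) : ℤ) * S.E (mQ vb) := by
      simp
    simp only [shA, Equiv.prodCongr_apply, Prod.map_apply, Equiv.refl_apply, eAff_apply,
      one_mul, colA, AddMonoidHom.prod_apply, Prod.mk.injEq, ha, hfP, hf4, hpj, hper, htm,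
      Pi.single_eq_same, intended_vb _ _ _ e4 e7, hx2, hr7]
    rw [← add_assoc x, lat_vdir, hlat, hnu, hdigC vb k 0 slot (Sum.inr 0) (by simp),
      hdigC vb k 0 slot (mP vb) (by simp), digJ vb y _ (hsqJ vb k 0), hbase]
    simp only [neg_add_eq_iff_eq_add, Int.cast_add, Int.cast_mul, Int.cast_natCast,
      Int.cast_ofNat, castE_self, castE_other S (show mP vb ≠ mQ vb by simp), Nat.cast_zero,
      zero_mul, mul_zero, mul_one, add_zero]
    rw [add_comm l4, add_comm lP]
    split_ifs with hc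
    · rw [add_assoc (pr2 S vb _)]
    · rw [add_assoc (pr2 S vb _), add_comm (HP vb _)]
  case cols =>
    intro x y V l
    obtain ⟨l7, lQ⟩ := l
    obtain ⟨r, hr⟩ : ∃ r : ZMod (S.mo (Sum.inr 0)), r = x.2 := ⟨_, rfl⟩
    refine exu_of_equiv ((eAff (x.2 : ZMod (S.mo (Sum.inr 1))) 4 2
        (by show (4 : ZMod 7) * 2 = 1; decide)).prodCongr
      ((eAff (y : ZMod (S.mo (mQ vb))) 1 1 (one_mul 1)).prodCongr (Equiv.refl _))) ?_
      (exu_combine (fun s => ¬ mk2 s.val r.val = true) (TB r) (labB r) (hB1 r) (hB2 r) (hB3 r)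
        (HQ vb) (labQ vb) (hQ vb) (pr2 S vb (S.dig (mJ vb) y) + HP vb y)
        (fun s => pr2 S vb (S.dig (mJ vb) y) + TA s r) V (pr2 S vb (lat vb x))
        (l7 + S.dig (Sum.inr 1) (lat vb x - y)) (lQ + S.dig (mQ vb) (lat vb x - y)))
    rintro ⟨j, k, slot⟩
    have hlat : lat vb (x + ((0 : ℤ), 4 * ((j : ℕ) : ℤ))) = lat vb x := by simp [lat, fm]
    have hx2 : ∀ n : ℤ, (x + (((0 : ℤ), 4 * ((j : ℕ) : ℤ)) + n • vdir vb)).2
        = x.2 + 4 * ((j : ℕ) : ℤ) := by intro n; simp [vdir, fm]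
    have hr4 : ((x.2 + 4 * ((j : ℕ) : ℤ) : ℤ) : ZMod (S.mo (Sum.inr 0))) = r := by
      rw [hr, Int.cast_add, Int.cast_mul,
        show ((4 : ℤ) : ZMod (S.mo (Sum.inr 0))) = 0 by show ((4 : ℤ) : ZMod 4) = 0; decide,
        zero_mul, add_zero]
    have hnu : (k : ℕ) * S.E (mQ vb) = ((0 : ℕ) : ℤ) * S.E (mP vb) + (k : ℕ) * S.E (mQ vb) := by
      simp
    simp only [shB, Equiv.prodCongr_apply, Prod.map_apply, Equiv.refl_apply, eAff_apply,
      one_mul, colB, AddMonoidHom.prod_apply, Prod.mk.injEq, ha, hfQ, hf7, hpj, hper, htm,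
      Pi.single_eq_same, intended_vb _ _ _ e4 e7, hx2, hr4]
    rw [← add_assoc x, lat_vdir, hlat, hnu, hdigC vb 0 k slot (Sum.inr 1) (by simp),
      hdigC vb 0 k slot (mQ vb) (by simp), digJ vb y _ (hsqJ vb 0 k), hbase]
    simp only [neg_add_eq_iff_eq_add, Int.cast_add, Int.cast_mul, Int.cast_natCast,
      Int.cast_ofNat, castE_self, castE_other S (show mQ vb ≠ mP vb by simp), Nat.cast_zero,
      zero_mul, mul_zero, mul_one, zero_add, add_zero]
    rw [add_comm l7, add_comm lQ, ite_not, ite_not]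
    split_ifs with hc
    · rw [add_assoc (pr2 S vb _), add_comm (HQ vb _)]
    · rw [add_assoc (pr2 S vb _)]

end Vale.Agent.P043.D3
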