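import Mathlib

/-!
P043: shapes with segment bumps and dents whose only tilings are typed cubic grids.
-/

namespace Vale.Agent.P043.D3

/-- points of `ℤ³` -/
abbrev Pt : Type := Fin 3 → ℤ

/-- the unit vector -/
def unit3 (j : Fin 3) : Pt := Pi.single j 1

section

variable (L : ℕ) [NeZero L]

/-- number of kinds of segments -/
def nSeg : ℕ := Fintype.card (Fin 3 × ZMod L)

/-- the side of the cubes -/
def side : ℤ := 2 * (nSeg L : ℤ) + 6

/-- number of a kind of segment -/
noncomputable def code (p : Fin 3 × ZMod L) : ℤ := ((Fintype.equivFin _ p : ℕ) : ℤ)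

/-- length of a segment -/
noncomputable def segLen (p : Fin 3 × ZMod L) : ℤ := (nSeg L : ℤ) + 1 + code L p

lemma code_bounds (p : Fin 3 × ZMod L) : 0 ≤ code L p ∧ code L p < (nSeg L : ℤ) := by
  refine ⟨Int.natCast_nonneg _, ?_⟩
  exact Int.ofNat_lt.2 (Fintype.equivFin (Fin 3 × ZMod L) p).isLt

lemma code_inj : Function.Injective (code L) := by
  intro p q h
  exact (Fintype.equivFin (Fin 3 × ZMod L)).injective (Fin.ext (Int.ofNat.inj h))

/-- a segment inside a cube -/
noncomputable def InSeg (p : Fin 3 × ZMod L) (z : Pt) : Prop :=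
  1 ≤ z 0 ∧ z 0 ≤ segLen L p ∧ z 1 = 2 + 2 * code L p ∧ z 2 = 2

/-- change of type along an axis -/
def bumpType (j : Fin 3) : ZMod L := if j = 0 then 1 else 0

/-- the cube without its segments -/
noncomputable def InBody (τ : ZMod L) (z : Pt) : Prop :=
  (∀ k, 0 ≤ z k ∧ z k < side L) ∧ ∀ j, ¬ InSeg L (j, τ) z

/-- the shape of type `τ` -/
noncomputable def InShape (τ : ZMod L) (z : Pt) : Prop :=
  InBody L τ z ∨ ∃ j, InSeg L (j, τ + bumpType L j) (z - side L • unit3 j)

lemma seg_cube {p : Fin 3 × ZMod L} {z : Pt} (h : InSeg L p z) :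
    ∀ k, 0 ≤ z k ∧ z k < side L := by
  obtain ⟨h0, h1, h2, h3⟩ := h
  obtain ⟨c0, c1⟩ := code_bounds L p
  unfold segLen at h1
  intro k
  fin_cases k <;> simp only [side, Fin.reduceFinMk, Fin.zero_eta, Fin.mk_one] <;> omega

lemma seg_inj {p q : Fin 3 × ZMod L} {z w : Pt} (h : InSeg L p z) (h' : InSeg L q w)
    (e : z 1 = w 1) : p = q := by
  apply code_inj L
  have := h.2.2.1
  have := h'.2.2.1
  omega

lemma body_of_level {τ : ZMod L} {z : Pt} (h : ∀ k, 0 ≤ z k ∧ z k < side L)
    (h2 : z 2 ≠ 2) : InBody L τ z :=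
  ⟨h, fun _ hj => h2 hj.2.2.2⟩

lemma bump_range {j : Fin 3} {p : Fin 3 × ZMod L} {z : Pt}
    (h : InSeg L p (z - side L • unit3 j)) :
    side L ≤ z j ∧ ∀ k, k ≠ j → z k < side L := by
  have hc := seg_cube L h
  constructor
  · have := (hc j).1
    simp [unit3] at this
    exact this
  · intro k hk
    have := (hc k).2
    simpa [unit3, hk] using this

lemma bump_axis {j j' : Fin 3} {p q : Fin 3 × ZMod L} {z : Pt}
    (h : InSeg L p (z - side L • unit3 j)) (h' : InSeg L q (z - side L • unit3 j')) : j = j' := by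
  by_contra hne
  have h1 := (bump_range L h).1
  have h2 := (bump_range L h').2 j hne
  omega

lemma hole_not_shape {τ : ZMod L} {j : Fin 3} {z : Pt} (h : InSeg L (j, τ) z) :
    ¬ InShape L τ z := by
  rintro (hb | ⟨j', hj'⟩)
  · exact hb.2 j h
  · have h1 := (bump_range L hj').1
    have h2 := (seg_cube L h j').2
    omega

lemma shape_box {τ : ZMod L} {z : Pt} (h : InShape L τ z) :
    ∀ k, 0 ≤ z k ∧ z k < 2 * side L := by
  have hM : (0 : ℤ) < side L := by unfold side; omega
  intro k
  rcases h with hb | ⟨j, hj⟩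
  · have := hb.1 k; omega
  · have := seg_cube L hj k
    rcases eq_or_ne k j with rfl | hk
    · simp [unit3] at this; omega
    · simp [unit3, hk] at this; omega

/-- the placed shapes cover every point exactly once -/
def Exact (P : Set (Pt × ZMod L)) : Prop :=
  ∀ z, ∃! p, p ∈ P ∧ InShape L p.2 (z - p.1)

/-- the grid with corner `s` and type `c` there -/
def gridSet (s : Pt) (c : ZMod L) : Set (Pt × ZMod L) :=
  {p | ∃ k : Pt, p = (s + side L • k, c + (k 0 : ZMod L))}

lemma cast_unit (j : Fin 3) : ((unit3 j 0 : ℤ) : ZMod L) = bumpType L j := by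
  unfold unit3 bumpType
  fin_cases j <;> simp

lemma grid_exact (s : Pt) (c : ZMod L) : Exact L (gridSet L s c) := by
  have hM : (0 : ℤ) < side L := by unfold side; omega
  intro z
  obtain ⟨k, hk⟩ : ∃ k : Pt, ∀ i, k i = (z i - s i) / side L := ⟨_, fun _ => rfl⟩
  obtain ⟨r, hr⟩ : ∃ r : Pt, ∀ i, r i = (z i - s i) % side L := ⟨_, fun _ => rfl⟩
  have hz : z = s + side L • k + r := by
    funext i
    have := Int.mul_ediv_add_emod (z i - s i) (side L)
    simp [hk, hr]
    omega
  have hrb : ∀ i, 0 ≤ r i ∧ r i < side L := fun i =>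
    ⟨hr i ▸ Int.emod_nonneg _ hM.ne', hr i ▸ Int.emod_lt_of_pos _ hM⟩
  have uniq : ∀ (k' w : Pt), (∀ i, 0 ≤ w i ∧ w i < side L) →
      s + side L • k' + w = z → k' = k ∧ w = r := by
    intro k' w hw e
    have h : ∀ i, k' i = k i ∧ w i = r i := by
      intro i
      have := congrFun e i
      simp at this
      have e1 : z i - s i = w i + side L * k' i := by omega
      constructor
      · rw [hk, e1, Int.add_mul_ediv_left _ _ hM.ne',
          Int.ediv_eq_zero_of_lt (hw i).1 (hw i).2, zero_add]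
      · rw [hr, e1, Int.add_mul_emod_self_left, Int.emod_eq_of_lt (hw i).1 (hw i).2]
    exact ⟨funext fun i => (h i).1, funext fun i => (h i).2⟩
  have members : ∀ p ∈ gridSet L s c, InShape L p.2 (z - p.1) →
      (p = (s + side L • k, c + (k 0 : ZMod L)) ∧ ∀ j, ¬ InSeg L (j, c + (k 0 : ZMod L)) r) ∨
      ∃ j, p = (s + side L • (k - unit3 j), c + ((k - unit3 j) 0 : ℤ)) ∧
        InSeg L (j, c + (k 0 : ZMod L)) r := by
    rintro _ ⟨k', rfl⟩ hp
    rcases hp with hb | ⟨j, hj⟩
    · obtain ⟨rfl, e⟩ := uniq k' _ hb.1 (by simp)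
      exact Or.inl ⟨rfl, e ▸ hb.2⟩
    · obtain ⟨e1, e2⟩ := uniq (k' + unit3 j) _ (seg_cube L hj) (by simp [smul_add]; abel)
      refine Or.inr ⟨j, ?_, ?_⟩
      · rw [← e1, add_sub_cancel_right]
      · rw [← e2, ← e1, Pi.add_apply, Int.cast_add, cast_unit, ← add_assoc]
        exact hj
  by_cases hseg : ∃ j, InSeg L (j, c + (k 0 : ZMod L)) r
  · obtain ⟨j, hj⟩ := hseg
    refine ⟨(s + side L • (k - unit3 j), c + ((k - unit3 j) 0 : ℤ)),
      ⟨⟨_, rfl⟩, Or.inr ⟨j, ?_⟩⟩, fun p hp => ?_⟩
    · have e : z - (s + side L • (k - unit3 j)) - side L • unit3 j = r := by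
        rw [hz, smul_sub]; abel
      rw [e, Pi.sub_apply, Int.cast_sub, cast_unit, add_assoc, sub_add_cancel]
      exact hj
    · rcases members p hp.1 hp.2 with ⟨-, hno⟩ | ⟨j', e, hj'⟩
      · exact absurd hj (hno j)
      · obtain ⟨rfl, -⟩ := Prod.mk.injEq .. ▸ seg_inj L hj' hj rfl
        exact e
  · push Not at hseg
    refine ⟨(s + side L • k, c + (k 0 : ZMod L)), ⟨⟨_, rfl⟩, Or.inl ⟨?_, ?_⟩⟩, fun p hp => ?_⟩
    · rw [show z - (s + side L • k) = r by rw [hz]; abel]; exact hrb
    · rw [show z - (s + side L • k) = r by rw [hz]; abel]; exact hseg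
    · rcases members p hp.1 hp.2 with ⟨e, -⟩ | ⟨j, -, hj⟩
      · exact e
      · exact absurd hj (hseg j)

variable {L} {P : Set (Pt × ZMod L)}

lemma exact_unique (hP : Exact L P) {z : Pt} {p q : Pt × ZMod L} (hp : p ∈ P) (hq : q ∈ P)
    (h1 : InShape L p.2 (z - p.1)) (h2 : InShape L q.2 (z - q.1)) : p = q :=
  (hP z).unique ⟨hp, h1⟩ ⟨hq, h2⟩

/-- the cover of a cell of a dent is a bump segment lying inside the dent -/
lemma hole_cover (hP : Exact L P) {p : Pt × ZMod L} (hp : p ∈ P) {j : Fin 3} {c : Pt}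
    (hc : InSeg L (j, p.2) c) :
    ∃ q ∈ P, ∃ (j' : Fin 3) (w : Pt), w = p.1 + c - q.1 - side L • unit3 j' ∧
      InSeg L (j', q.2 + bumpType L j') w ∧ 1 ≤ c 0 - w 0 + 1 ∧
      c 0 - w 0 + segLen L (j', q.2 + bumpType L j') ≤ segLen L (j, p.2) := by
  obtain ⟨q, ⟨hq, hs⟩, -⟩ := hP (p.1 + c)
  have hne : q ≠ p := by
    rintro rfl
    rw [add_sub_cancel_left] at hs
    exact hole_not_shape L hc hs
  obtain ⟨hc0, hc1, hc2, hc3⟩ := id hc
  have hcc := seg_cube L hc
  obtain ⟨b0, b1⟩ := code_bounds L (j, p.2)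
  have hlen : segLen L (j, p.2) = (nSeg L : ℤ) + 1 + code L (j, p.2) := rfl
  have hside : side L = 2 * (nSeg L : ℤ) + 6 := rfl
  have pbody : ∀ u : Pt, (∀ k, k ≠ 0 → k ≠ 2 → u k = c k) →
      (0 ≤ u 0 ∧ u 0 < side L) → (0 ≤ u 2 ∧ u 2 < side L) →
      (u 2 = c 2 → u 0 = 0 ∨ u 0 = segLen L (j, p.2) + 1) → InShape L p.2 u := by
    intro u hu h0 h2 hout
    refine Or.inl ⟨fun k => ?_, fun j' hj' => ?_⟩
    · by_cases k0 : k = 0
      · subst k0; exact h0
      by_cases k2 : k = 2
      · subst k2; exact h2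
      rw [hu k k0 k2]; exact hcc k
    · have e := seg_inj L hj' hc (hu 1 (by decide) (by decide))
      rcases hout (hj'.2.2.2.trans hc3.symm) with h | h
      · have := hj'.1; omega
      · have := hj'.2.1; rw [e] at this; omega
  rcases hs with hb | ⟨j', hj'⟩
  · exfalso
    obtain ⟨δ, hδ, hok⟩ : ∃ δ : ℤ, (δ = 1 ∨ δ = -1) ∧
        InBody L q.2 (p.1 + c + δ • unit3 2 - q.1) := by
      have hb2 := hb.1 2
      simp at hb2
      by_cases hlev : (p.1 2 + c 2 - q.1 2 = 1) ∨ (p.1 2 + c 2 - q.1 2 = side L - 1)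
      · refine ⟨-1, Or.inr rfl, body_of_level L (fun k => ?_) ?_⟩
        · have := hb.1 k
          by_cases hk : k = 2
          · subst hk; simp [unit3] at this ⊢; omega
          · simp [unit3, hk] at this ⊢; omega
        · simp [unit3]; omega
      · refine ⟨1, Or.inl rfl, body_of_level L (fun k => ?_) ?_⟩
        · have := hb.1 k
          by_cases hk : k = 2
          · subst hk; simp [unit3] at this ⊢; omega
          · simp [unit3, hk] at this ⊢; omega
        · simp [unit3]; omega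
    apply hne
    refine exact_unique hP hq hp (Or.inl hok) ?_
    rw [show p.1 + c + δ • unit3 2 - p.1 = c + δ • unit3 2 by abel]
    apply pbody
    · intro k _ k2; simp [unit3, k2]
    · simp [unit3]; exact hcc 0
    · simp [unit3]; omega
    · intro e; simp [unit3] at e; omega
  · obtain ⟨w, hw⟩ : ∃ w, w = p.1 + c - q.1 - side L • unit3 j' := ⟨_, rfl⟩
    rw [← hw] at hj'
    refine ⟨q, hq, j', w, hw, hj', ?_⟩
    obtain ⟨w0, w1, w2, w3⟩ := id hj'
    have along : ∀ t, 1 ≤ t → t ≤ segLen L (j', q.2 + bumpType L j') →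
        (c 0 - w 0 + t = 0 ∨ c 0 - w 0 + t = segLen L (j, p.2) + 1) → False := by
      intro t t1 t2 hout
      apply hne
      refine exact_unique (z := p.1 + (c + (t - w 0) • unit3 0)) hP hq hp
        (Or.inr ⟨j', ?_⟩) ?_
      · have e : p.1 + (c + (t - w 0) • unit3 0) - q.1 - side L • unit3 j'
            = w + (t - w 0) • unit3 0 := by rw [hw]; abel
        rw [e]
        refine ⟨?_, ?_, ?_, ?_⟩ <;> simp [unit3] <;> omega
      · rw [add_sub_cancel_left]
        apply pbody
        · intro k k0 _; simp [unit3, k0]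
        · simp [unit3]; omega
        · simp [unit3]; omega
        · intro _; simp [unit3]; omega
    constructor
    · by_contra hlt
      exact along (w 0 - c 0) (by omega) (by omega) (Or.inl (by omega))
    · by_contra hlt
      exact along (segLen L (j, p.2) + 1 - (c 0 - w 0)) (by omega) (by omega) (Or.inr (by omega))

lemma pred_mem (hP : Exact L P) {p : Pt × ZMod L} (hp : p ∈ P) (j : Fin 3) :
    (p.1 - side L • unit3 j, p.2 - bumpType L j) ∈ P := by
  obtain ⟨b0, b1⟩ := code_bounds L (j, p.2)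
  have hlen : segLen L (j, p.2) = (nSeg L : ℤ) + 1 + code L (j, p.2) := rfl
  obtain ⟨cell, hcell⟩ : ∃ cell : ℤ → Pt, ∀ t,
      cell t = fun k => if k = 0 then t else if k = 1 then 2 + 2 * code L (j, p.2) else 2 :=
    ⟨_, fun _ => rfl⟩
  have hcell' : ∀ t, cell t 0 = t ∧ cell t 1 = 2 + 2 * code L (j, p.2) ∧ cell t 2 = 2 := fun t => by simp [hcell]
  have inseg : ∀ t, 1 ≤ t → t ≤ segLen L (j, p.2) → InSeg L (j, p.2) (cell t) := by
    intro t t1 t2
    obtain ⟨a, b, c⟩ := hcell' t
    exact ⟨by omega, by omega, b, c⟩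
  have hf : InSeg L (j, p.2) (cell 1) := inseg 1 le_rfl (by omega)
  obtain ⟨q, hq, j', w, hw, hwseg, hs1, hs2⟩ := hole_cover hP hp hf
  obtain ⟨b0', b1'⟩ := code_bounds L (j', q.2 + bumpType L j')
  have hlen' : segLen L (j', q.2 + bumpType L j')
      = (nSeg L : ℤ) + 1 + code L (j', q.2 + bumpType L j') := rfl
  have hw0 : w 0 = 1 := by have := hwseg.1; have := (hcell' 1).1; omega
  have heq : segLen L (j', q.2 + bumpType L j') = segLen L (j, p.2) := by
    have := (hcell' 1).1
    by_contra hne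
    obtain ⟨a, ha⟩ : ∃ a, a = segLen L (j', q.2 + bumpType L j') + 1 := ⟨_, rfl⟩
    obtain ⟨q', hq', j'', w', hw', hwseg', hs1', hs2'⟩ :=
      hole_cover hP hp (inseg a (by omega) (by omega))
    obtain ⟨b0'', b1''⟩ := code_bounds L (j'', q'.2 + bumpType L j'')
    have hlen'' : segLen L (j'', q'.2 + bumpType L j'')
        = (nSeg L : ℤ) + 1 + code L (j'', q'.2 + bumpType L j'') := rfl
    have := (hcell' a).1
    have := hwseg'.1
    have := hwseg'.2.1
    by_cases h1 : w' 0 = 1
    · omega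
    · -- the cell before lies in both bumps
      have e1 : p.1 + cell (a - 1) - q.1 - side L • unit3 j' = w + (a - 2) • unit3 0 := by
        rw [hw]; funext k; fin_cases k <;> simp [hcell, unit3] <;> ring
      have e2 : p.1 + cell (a - 1) - q'.1 - side L • unit3 j'' = w' + (-1 : ℤ) • unit3 0 := by
        rw [hw']; funext k; fin_cases k <;> simp [hcell, unit3] <;> ring
      obtain ⟨-, -, x2, x3⟩ := hwseg
      obtain ⟨-, -, y2, y3⟩ := hwseg'
      have f1 : InSeg L (j', q.2 + bumpType L j') (w + (a - 2) • unit3 0) := by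
        refine ⟨?_, ?_, ?_, ?_⟩ <;> simp [unit3] <;> omega
      have f2 : InSeg L (j'', q'.2 + bumpType L j'') (w' + (-1 : ℤ) • unit3 0) := by
        refine ⟨?_, ?_, ?_, ?_⟩ <;> simp [unit3] <;> omega
      have hqq : q = q' := exact_unique (z := p.1 + cell (a - 1)) hP hq hq'
        (Or.inr ⟨j', e1.symm ▸ f1⟩) (Or.inr ⟨j'', e2.symm ▸ f2⟩)
      subst hqq
      rw [← e1] at f1
      rw [← e2] at f2
      obtain rfl := bump_axis L f1 f2
      have ee : w' 0 = w 0 + a - 1 := by
        rw [hw, hw']; simp [hcell, unit3]; ring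
      omega
  have hcode : (j', q.2 + bumpType L j') = (j, p.2) := code_inj L (by omega)
  rw [Prod.mk.injEq] at hcode
  obtain ⟨rfl, h2⟩ := hcode
  have hweq : w = cell 1 := by
    obtain ⟨-, -, x2, x3⟩ := hwseg
    rw [h2] at x2
    funext k
    fin_cases k <;> simp [hcell] <;> assumption
  have e : (p.1 - side L • unit3 j', p.2 - bumpType L j') = q := by
    apply Prod.ext
    · have e0 : cell 1 = p.1 + cell 1 - q.1 - side L • unit3 j' := hweq ▸ hw
      show p.1 - side L • unit3 j' = q.1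
      calc p.1 - side L • unit3 j'
          = (p.1 + cell 1 - q.1 - side L • unit3 j') + q.1 - cell 1 := by abel
        _ = q.1 := by rw [← e0]; abel
    · show p.2 - bumpType L j' = q.2
      rw [← h2, add_sub_cancel_right]
  rw [e]; exact hq

lemma down_mem (hP : Exact L P) {p : Pt × ZMod L} (hp : p ∈ P) (n : Pt) (hn : ∀ i, 0 ≤ n i) :
    (p.1 - side L • n, p.2 - (n 0 : ZMod L)) ∈ P := by
  induction hN : (∑ i, (n i).toNat) using Nat.strong_induction_on generalizing n with
  | _ N ih =>
    by_cases h0 : ∀ i, n i = 0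
    · have : n = 0 := funext h0
      simpa [this] using hp
    push Not at h0
    obtain ⟨j, hj⟩ := h0
    have hj1 : 1 ≤ n j := by have := hn j; omega
    have hlt : (∑ i, ((n - unit3 j) i).toNat) < N := by
      rw [← hN]
      apply Finset.sum_lt_sum
      · intro i _
        by_cases hi : i = j <;> simp [unit3, hi]
      · exact ⟨j, Finset.mem_univ _, by simp [unit3]; omega⟩
    have h := pred_mem hP (ih _ hlt (n - unit3 j) (fun i => by
      by_cases hi : i = j <;> simp [unit3, hi] <;> [omega; exact hn i]) rfl) j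
    have e1 : p.1 - side L • (n - unit3 j) - side L • unit3 j = p.1 - side L • n := by
      rw [smul_sub]; abel
    have e2 : p.2 - ((n - unit3 j) 0 : ℤ) - bumpType L j = p.2 - (n 0 : ZMod L) := by
      rw [Pi.sub_apply, Int.cast_sub, cast_unit]; abel
    simp only [e1, e2] at h
    exact h

lemma rigid (hP : Exact L P) :
    ∃ s c, P = gridSet L s c := by
  obtain ⟨⟨s, c⟩, ⟨hp, -⟩, -⟩ := hP 0
  have hM : (0 : ℤ) < side L := by unfold side; omega
  have hM6 : (6 : ℤ) ≤ side L := by unfold side; omega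
  have sub : P ⊆ gridSet L s c := by
    rintro ⟨s', c'⟩ hp'
    obtain ⟨k, hk⟩ : ∃ k : Pt, ∀ i, k i = (s' i - s i) / side L := ⟨_, fun _ => rfl⟩
    obtain ⟨r, hr⟩ : ∃ r : Pt, ∀ i, r i = (s' i - s i) % side L := ⟨_, fun _ => rfl⟩
    obtain ⟨n, hn⟩ : ∃ n : Pt, ∀ i, n i = max (-k i) 0 := ⟨_, fun _ => rfl⟩
    obtain ⟨n', hn'⟩ : ∃ n' : Pt, ∀ i, n' i = max (k i) 0 := ⟨_, fun _ => rfl⟩
    have h1 := down_mem hP hp n fun i => hn i ▸ le_max_right _ _
    have h2 := down_mem hP hp' n' fun i => hn' i ▸ le_max_right _ _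
    have hrb : ∀ i, 0 ≤ r i ∧ r i < side L := fun i =>
      ⟨hr i ▸ Int.emod_nonneg _ hM.ne', hr i ▸ Int.emod_lt_of_pos _ hM⟩
    obtain ⟨t, ht, htb, htl⟩ : ∃ t : ℤ, r 2 ≤ t ∧ t < side L ∧ (t - r 2 ≠ 2 ∧ t ≠ 2) := by
      by_cases h : r 2 = side L - 3
      · exact ⟨side L - 2, by omega, by omega, by omega, by omega⟩
      · exact ⟨side L - 1, by have := hrb 2; omega, by omega, by omega, by omega⟩
    have hdiff : s' - side L • n' = s - side L • n + r := by
      funext i
      have h0 : n' i = k i + n i := by rw [hn, hn']; omega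
      have := Int.mul_ediv_add_emod (s' i - s i) (side L)
      simp [h0, mul_add]
      rw [← hk, ← hr] at this
      omega
    have heq := exact_unique
      (z := s - side L • n + fun i => if i = 2 then t else side L - 1) hP h1 h2
      (Or.inl (body_of_level L (fun i => by
        have := hrb 2
        by_cases hi : i = 2 <;> simp [hi] <;> omega) (by simp; omega)))
      (Or.inl (body_of_level L (fun i => by
        have h := congrFun hdiff i
        simp at h
        have := hrb i
        have := hrb 2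
        by_cases hi : i = 2
        · subst hi; simp; omega
        · simp [hi]; omega) (by
        have h := congrFun hdiff 2
        simp at h
        simp
        omega)))
    rw [Prod.mk.injEq] at heq
    obtain ⟨e1, e2⟩ := heq
    refine ⟨k, Prod.ext ?_ ?_⟩
    · funext i
      have h := congrFun hdiff i
      rw [← e1] at h
      simp at h
      have := Int.mul_ediv_add_emod (s' i - s i) (side L)
      simp [hk]
      rw [← hk, ← hr] at this
      rw [← hk]
      omega
    · show c' = c + (k 0 : ZMod L)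
      have h0 : n' 0 = k 0 + n 0 := by rw [hn, hn']; omega
      rw [h0, Int.cast_add] at e2
      calc c' = (c' - ((k 0 : ZMod L) + (n 0 : ZMod L))) + ((k 0 : ZMod L) + (n 0 : ZMod L)) := by
            abel
        _ = (c - (n 0 : ZMod L)) + ((k 0 : ZMod L) + (n 0 : ZMod L)) := by rw [e2]
        _ = c + (k 0 : ZMod L) := by abel
  refine ⟨s, c, Set.Subset.antisymm sub ?_⟩
  rintro _ ⟨k, rfl⟩
  obtain ⟨q, ⟨hq, hs⟩, -⟩ := hP (s + side L • k + fun _ => side L - 1)
  obtain ⟨k', rfl⟩ := sub hq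
  rcases hs with hb | ⟨j, hj⟩
  · suffices e : k' = k by subst e; exact hq
    funext i
    have h := hb.1 i
    simp at h
    have e : (k i - k' i) = 0 := by
      by_contra hne
      rcases lt_or_gt_of_ne hne with hlt | hgt
      · have : side L * (k i - k' i) ≤ side L * (-1) :=
          mul_le_mul_of_nonneg_left (by omega) hM.le
        nlinarith
      · have : side L * 1 ≤ side L * (k i - k' i) :=
          mul_le_mul_of_nonneg_left (by omega) hM.le
        nlinarith
    omega
  · exfalso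
    have h := hj.2.2.2
    simp at h
    have hd : side L ∣ (3 : ℤ) := ⟨k 2 + 1 - k' 2 - (unit3 j 2), by
      linear_combination -h⟩
    have := Int.le_of_dvd (by norm_num) hd
    omega

end

end Vale.Agent.P043.D3
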