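import Mathlib
import Vale.Agent.P043.D3.Rigid
import Vale.Agent.P043.D3.Group

/-!
P043: from a finite system of equations in `ℤ³` to a single tile in `ℤ³`.
-/

namespace Vale.Agent.P043.D3

/-- scale the first coordinate by `L` and add `a` -/
def stretch (L a : ℤ) (b : Pt) : Pt := fun i => if i = 0 then L * b 0 + a else b i

lemma stretch_add (L a a' : ℤ) (b b' : Pt) :
    stretch L a b + stretch L a' b' = stretch L (a + a') (b + b') := by
  funext i
  by_cases hi : i = 0
  · subst hi; simp [stretch]; ring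
  · simp [stretch, hi]

lemma stretch_inj {L a : ℤ} (hL : L ≠ 0) {b b' : Pt} (h : stretch L a b = stretch L a b') :
    b = b' := by
  funext i
  have hi := congrFun h i
  by_cases h0 : i = 0
  · subst h0
    simp [stretch] at hi
    rcases hi with hi | hi
    · exact hi
    · exact absurd hi hL
  · simpa [stretch, h0] using hi

lemma stretch_cast (L : ℕ) (a : ℤ) (b : Pt) :
    ((stretch (L : ℤ) a b 0 : ℤ) : ZMod L) = (a : ZMod L) := by
  simp [stretch]

lemma stretch_surj (L : ℕ) [NeZero L] (a : ℤ) (k : Pt) (h : (k 0 : ZMod L) = (a : ZMod L)) :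
    ∃ b, k = stretch (L : ℤ) a b := by
  rw [← sub_eq_zero, ← Int.cast_sub, ZMod.intCast_zmod_eq_zero_iff_dvd] at h
  obtain ⟨t, ht⟩ := h
  refine ⟨fun i => if i = 0 then t else k i, funext fun i => ?_⟩
  by_cases hi : i = 0
  · subst hi; simp [stretch]; linarith
  · simp [stretch, hi]

section

variable (L : ℕ) [NeZero L] {ι : ZMod L → Type} [∀ l, Finite (ι l)] (E : ∀ l, ι l → Pt)

/-- where the cube of a cell is put -/
noncomputable def anchor (l : ZMod L) (i : ι l) : Pt :=
  side L • stretch (L : ℤ) (l.val : ℤ) (E l i)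

/-- index of a point of the tile -/
def TileIdx : Type := Σ l : ZMod L, ι l × {w : Pt // InShape L l w}

/-- the points of the tile -/
noncomputable def tilePts : TileIdx L (ι := ι) → Pt := fun t =>
  anchor L E t.1 t.2.1 + t.2.2.1

instance tileIdx_finite : Finite (TileIdx L (ι := ι)) := by
  have hfin : ∀ l : ZMod L, Finite {w : Pt // InShape L l w} := by
    intro l
    apply Set.Finite.to_subtype
    apply Set.Finite.subset (Set.finite_Icc (fun _ => 0 : Pt) (fun _ => 2 * side L))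
    intro w hw
    exact ⟨fun i => (shape_box L hw i).1, fun i => (shape_box L hw i).2.le⟩
  unfold TileIdx
  infer_instance

/-- A tiling by the tile gives a common tiling of all equations, with the same periods. -/
lemma system_of_tiling {A : Set Pt} (hA : Covers A (tilePts L E)) :
    ∃ B : Set Pt, (∀ l, Covers B (E l)) ∧
      ∀ N : ℕ, (∀ z v : Pt, z ∈ A ↔ z + N • v ∈ A) → ∀ b v : Pt, b ∈ B ↔ b + N • v ∈ B := by
  have hM : (0 : ℤ) < side L := by unfold side; omega
  have hL : (L : ℤ) ≠ 0 := by exact_mod_cast NeZero.ne L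
  obtain ⟨P, hP⟩ : ∃ P : Set (Pt × ZMod L),
      P = {p | ∃ a ∈ A, ∃ i : ι p.2, p.1 = a + anchor L E p.2 i} := ⟨_, rfl⟩
  have memP : ∀ (a : Pt) (l : ZMod L) (i : ι l), a ∈ A → (a + anchor L E l i, l) ∈ P :=
    fun a l i ha => hP ▸ ⟨a, ha, i, rfl⟩
  have hex : Exact L P := by
    intro z
    obtain ⟨⟨l, i, w, hw⟩, ht, hu⟩ := hA z
    refine ⟨(z - tilePts L E ⟨l, i, w, hw⟩ + anchor L E l i, l), ⟨memP _ l i ht, ?_⟩, ?_⟩
    · simp only [tilePts]
      rw [show z - (z - (anchor L E l i + w) + anchor L E l i) = w by abel]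
      exact hw
    · rintro ⟨p, l'⟩ ⟨hp, hs⟩
      rw [hP] at hp
      obtain ⟨a, ha, i', hai⟩ := hp
      simp only at hai hs
      have e : z - tilePts L E ⟨l', i', z - p, hs⟩ = a := by
        simp only [tilePts, hai]; abel
      have h := hu ⟨l', i', z - p, hs⟩ (by show _ ∈ A; rw [e]; exact ha)
      rw [hai, ← e]
      cases h
      rfl
  obtain ⟨s, c, hgrid⟩ := rigid hex
  obtain ⟨a₀, ha₀⟩ : ∃ a, a ∈ A := by
    obtain ⟨t, ht, -⟩ := hA 0
    exact ⟨_, ht⟩
  obtain ⟨κ, hκ⟩ : ∃ κ : ℤ, (κ : ZMod L) = -c := ZMod.intCast_surjective _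
  obtain ⟨f, hf⟩ : ∃ f : Pt → Pt, ∀ b, f b = s + side L • stretch (L : ℤ) κ b := ⟨_, fun _ => rfl⟩
  refine ⟨{b | f b ∈ A}, fun l γ => ?_, fun N hN b v => ?_⟩
  · have hadd : ∀ i : ι l, f (γ - E l i) + anchor L E l i
        = s + side L • stretch (L : ℤ) (κ + (l.val : ℤ)) γ := by
      intro i
      rw [hf, anchor, add_assoc, ← smul_add, stretch_add, sub_add_cancel]
    have hp : (s + side L • stretch (L : ℤ) (κ + (l.val : ℤ)) γ, l) ∈ P := by
      rw [hgrid]
      refine ⟨stretch (L : ℤ) (κ + (l.val : ℤ)) γ, Prod.ext rfl ?_⟩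
      show l = _
      rw [stretch_cast, Int.cast_add, hκ, Int.cast_natCast, ZMod.natCast_zmod_val]
      abel
    rw [hP] at hp
    obtain ⟨a, ha, i, hai⟩ := hp
    simp only at hai
    have key : ∀ i', f (γ - E l i') =
        (s + side L • stretch (L : ℤ) (κ + (l.val : ℤ)) γ) - anchor L E l i' :=
      fun i' => by rw [← hadd i']; abel
    refine ⟨i, ?_, fun i' hi' => ?_⟩
    · show f _ ∈ A
      rw [key, hai, add_sub_cancel_right]
      exact ha
    · obtain ⟨w, hw⟩ : ∃ w : Pt, InShape L l w :=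
        ⟨fun _ => side L - 1, Or.inl (body_of_level L (fun _ => ⟨by omega, by omega⟩)
          (by unfold side; omega))⟩
      have h := (hA (s + side L • stretch (L : ℤ) (κ + (l.val : ℤ)) γ + w)).unique
        (y₁ := ⟨l, i', w, hw⟩) (y₂ := ⟨l, i, w, hw⟩) ?_ ?_
      · cases h; rfl
      · simp only [tilePts]
        rw [show s + side L • stretch (L : ℤ) (κ + (l.val : ℤ)) γ + w - (anchor L E l i' + w)
            = f (γ - E l i') by rw [key]; abel]
        exact hi'
      · simp only [tilePts]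
        rw [hai, show a + anchor L E l i + w - (anchor L E l i + w) = a by abel]
        exact ha
  · show f b ∈ A ↔ f (b + N • v) ∈ A
    have e : f (b + N • v) = f b + N • (side L • stretch (L : ℤ) 0 v) := by
      rw [hf, hf]
      funext i
      by_cases hi : i = 0
      · subst hi; simp [stretch]; ring
      · simp [stretch, hi]; ring
    rw [e]
    exact hN _ _

/-- A common tiling of all equations gives a tiling by the tile. -/
lemma tiling_of_system {B : Set Pt} (hB : ∀ l, Covers B (E l)) :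
    ∃ A : Set Pt, Covers A (tilePts L E) := by
  have hM : side L ≠ 0 := by unfold side; omega
  have hL : (L : ℤ) ≠ 0 := by exact_mod_cast NeZero.ne L
  refine ⟨{z | ∃ b ∈ B, z = side L • stretch (L : ℤ) 0 b}, fun z => ?_⟩
  obtain ⟨p, ⟨hp, hs⟩, hu⟩ := grid_exact L 0 0 z
  obtain ⟨k, rfl⟩ := hp
  obtain ⟨γ, hγ⟩ := stretch_surj L (((k 0 : ZMod L)).val : ℤ) k (by simp)
  simp only [zero_add] at hs hu
  obtain ⟨i, hi, hiu⟩ := hB (k 0 : ZMod L) γ
  refine ⟨⟨(k 0 : ZMod L), i, z - side L • k, hs⟩, ⟨_, hi, ?_⟩, ?_⟩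
  · simp only [tilePts, anchor]
    rw [show z - (side L • stretch (L : ℤ) (((k 0 : ZMod L)).val : ℤ) (E _ i) + (z - side L • k))
        = side L • k - side L • stretch (L : ℤ) (((k 0 : ZMod L)).val : ℤ) (E _ i) by abel,
      sub_eq_iff_eq_add, ← smul_add, stretch_add, zero_add, sub_add_cancel, ← hγ]
  · rintro ⟨l, i', w, hw⟩ ⟨b, hb, e⟩
    simp only [tilePts, anchor] at e
    have e' : z = side L • stretch (L : ℤ) (l.val : ℤ) (b + E l i') + w := by
      rw [sub_eq_iff_eq_add] at e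
      rw [e, ← add_assoc, ← smul_add, stretch_add, zero_add]
    have h := hu (side L • stretch (L : ℤ) (l.val : ℤ) (b + E l i'), l)
      ⟨⟨stretch (L : ℤ) (l.val : ℤ) (b + E l i'), Prod.ext (by simp)
      (by show l = _; rw [stretch_cast, Int.cast_natCast, ZMod.natCast_zmod_val]; simp)⟩, by
      simp only [e', add_sub_cancel_left]; exact hw⟩
    rw [Prod.mk.injEq] at h
    obtain ⟨e1, rfl⟩ := h
    have e2 : γ = b + E _ i' := by
      refine stretch_inj hL (a := (((k 0 : ZMod L)).val : ℤ)) ?_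
      rw [← hγ]
      exact (smul_right_injective Pt hM e1).symm
    have e3 : w = z - side L • k := by rw [e', e1]; abel
    obtain rfl := hiu i' (by
      show γ - E _ i' ∈ B
      rw [e2, add_sub_cancel_right]; exact hb)
    subst e3
    rfl

end

/-- A finite tile with a tiling and no periodic tiling, from a system with the same property. -/
lemma tile_of_system {Q : Type} [Finite Q] [Nonempty Q] {ι : Q → Type} [∀ q, Finite (ι q)]
    (E : ∀ q, ι q → Pt) (hsol : ∃ B, ∀ q, Covers B (E q))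
    (hno : ∀ B, (∀ q, Covers B (E q)) → ∀ N : ℕ, 0 < N → ¬ ∀ b v : Pt, b ∈ B ↔ b + N • v ∈ B) :
    ∃ F : Finset Pt,
      (∃ A : Set Pt, ∀ z, ∃! p : Pt × Pt, p.1 ∈ A ∧ p.2 ∈ F ∧ p.1 + p.2 = z) ∧
      ∀ A : Set Pt, (∀ z, ∃! p : Pt × Pt, p.1 ∈ A ∧ p.2 ∈ F ∧ p.1 + p.2 = z) →
        ∀ N : ℕ, 0 < N → ¬ ∀ z v : Pt, z ∈ A ↔ z + N • v ∈ A := by
  classical
  haveI := Fintype.ofFinite Q
  have hpos : 0 < Fintype.card Q := Fintype.card_pos
  obtain ⟨n, hn⟩ : ∃ n, Fintype.card Q = n + 1 := ⟨Fintype.card Q - 1, by omega⟩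
  obtain ⟨e⟩ : Nonempty (ZMod (n + 1) ≃ Q) :=
    ⟨(Fintype.equivFinOfCardEq hn).symm⟩
  obtain ⟨A₀, hA₀⟩ : ∃ A, Covers A (tilePts (n + 1) (fun l => E (e l))) := by
    obtain ⟨B, hB⟩ := hsol
    exact tiling_of_system (n + 1) _ fun l => hB (e l)
  have hinj : Function.Injective (tilePts (n + 1) (fun l => E (e l))) := by
    intro t t' h
    obtain ⟨u, hu, -⟩ := hA₀ 0
    refine (hA₀ (0 - tilePts (n + 1) (fun l => E (e l)) u + tilePts (n + 1) (fun l => E (e l)) t)).unique ?_ ?_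
    · simpa using hu
    · rw [← h]; simpa using hu
  haveI := Fintype.ofFinite (TileIdx (n + 1) (ι := fun l => ι (e l)))
  obtain ⟨F, hF⟩ : ∃ F : Finset Pt,
      F = Finset.univ.image (tilePts (n + 1) (fun l => E (e l))) := ⟨_, rfl⟩
  have conv : ∀ A : Set Pt, (∀ z, ∃! p : Pt × Pt, p.1 ∈ A ∧ p.2 ∈ F ∧ p.1 + p.2 = z) ↔
      Covers A (tilePts (n + 1) (fun l => E (e l))) := by
    intro A
    refine forall_congr' fun z => ⟨?_, ?_⟩
    · rintro ⟨⟨a, f⟩, ⟨ha, hf, hsum⟩, hu⟩
      simp only [hF, Finset.mem_image, Finset.mem_univ, true_and] at hf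
      obtain ⟨t, rfl⟩ := hf
      refine ⟨t, by show _ ∈ A; rw [← hsum, add_sub_cancel_right]; exact ha, fun t' ht' => hinj ?_⟩
      have := hu (z - tilePts (n + 1) (fun l => E (e l)) t', tilePts (n + 1) (fun l => E (e l)) t') ⟨ht', by simp [hF], sub_add_cancel _ _⟩
      exact congrArg Prod.snd this
    · rintro ⟨t, ht, hu⟩
      refine ⟨(z - tilePts (n + 1) (fun l => E (e l)) t, tilePts (n + 1) (fun l => E (e l)) t), ⟨ht, by simp [hF], sub_add_cancel _ _⟩, ?_⟩
      rintro ⟨a, f⟩ ⟨ha, hf, hsum⟩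
      simp only [hF, Finset.mem_image, Finset.mem_univ, true_and] at hf
      obtain ⟨t', rfl⟩ := hf
      obtain rfl := hu t' (by show _ ∈ A; rw [← hsum, add_sub_cancel_right]; exact ha)
      simp only [← hsum, add_sub_cancel_right]
  refine ⟨F, ⟨A₀, (conv A₀).2 hA₀⟩, fun A hA N hN hper => ?_⟩
  obtain ⟨B, hB, hBper⟩ := system_of_tiling (n + 1) _ ((conv A).1 hA)
  refine hno B (fun q => ?_) N hN (hBper N hper)
  obtain ⟨l, rfl⟩ := e.surjective q
  exact hB l

end Vale.Agent.P043.D3
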