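import Mathlib
import Vale.Agent.P043.D3.Lift
import Vale.Agent.P043.Lift

/-!
P043: from a finite system on a quotient of `ℤ³` by a cyclic subgroup to tiles in `ℤ^d`, `d ≥ 3`.
-/

namespace Vale.Agent.P043.D3

open Vale.Agent.P043 (moved_invariant invariant_zsmul)

variable {Γ : Type} [AddCommGroup Γ] {Q : Type} {ι : Q → Type}

/-- the lifted equations and one equation with one moved cell -/
noncomputable def cellsQ (π : Pt →+ Γ) (hπ : Function.Surjective π) (kv : Pt)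
    (E : ∀ q, ι q → Γ) (q₀ : Q) [DecidableEq (ι q₀)] (i₀ : ι q₀) :
    ∀ o : Option Q, Option.elim o (ι q₀) ι → Pt
  | some q => fun i => Function.surjInv hπ (E q i)
  | none => fun i : ι q₀ => if i = i₀ then Function.surjInv hπ (E q₀ i₀) + kv
      else Function.surjInv hπ (E q₀ i)

/-- A system on `ℤ³ / ℤ kv` with a solution and none invariant under a multiple of the image of
the first unit vector gives an aperiodic tile of `ℤ³`. -/
theorem tile_of_quotient (π : Pt →+ Γ) (hπ : Function.Surjective π) (kv : Pt)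
    (hk : π kv = 0) (hker : ∀ z, π z = 0 → ∃ t : ℤ, z = t • kv)
    [Finite Q] [Nonempty Q] [∀ q, Finite (ι q)] (E : ∀ q, ι q → Γ)
    (hsol : ∃ A : Set Γ, ∀ q, Covers A (E q))
    (hno : ∀ A : Set Γ, (∀ q, Covers A (E q)) → ∀ N : ℕ, 0 < N →
      ¬ ∀ γ, γ ∈ A ↔ γ + π (N • unit3 0) ∈ A) :
    ∃ F : Finset Pt,
      (∃ A : Set Pt, ∀ z, ∃! p : Pt × Pt, p.1 ∈ A ∧ p.2 ∈ F ∧ p.1 + p.2 = z) ∧
      ∀ A : Set Pt, (∀ z, ∃! p : Pt × Pt, p.1 ∈ A ∧ p.2 ∈ F ∧ p.1 + p.2 = z) →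
        ∀ N : ℕ, 0 < N → ¬ ∀ z v : Pt, z ∈ A ↔ z + N • v ∈ A := by
  classical
  obtain ⟨q₀⟩ := (inferInstance : Nonempty Q)
  obtain ⟨i₀, -⟩ : ∃ i : ι q₀, True := by
    obtain ⟨A, hA⟩ := hsol
    obtain ⟨i, -, -⟩ := hA q₀ 0
    exact ⟨i, trivial⟩
  haveI : ∀ o : Option Q, Finite (Option.elim o (ι q₀) ι) := by
    intro o; cases o <;> simp only [Option.elim] <;> infer_instance
  haveI : Nonempty (Option Q) := ⟨none⟩
  have hs : ∀ γ, π (Function.surjInv hπ γ) = γ := Function.surjInv_eq hπ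
  refine tile_of_system (cellsQ π hπ kv E q₀ i₀) ?_ ?_
  · obtain ⟨A, hA⟩ := hsol
    refine ⟨π ⁻¹' A, ?_⟩
    rintro (_ | q) z
    · have e : ∀ i : ι q₀, π (cellsQ π hπ kv E q₀ i₀ none i) = E q₀ i := by
        intro i
        by_cases hi : i = i₀
        · subst hi; simp [cellsQ, hs, hk]
        · simp [cellsQ, hi, hs]
      obtain ⟨i, hi, hu⟩ := hA q₀ (π z)
      refine ⟨i, ?_, fun i' hi' => hu i' ?_⟩
      · show π (z - cellsQ π hπ kv E q₀ i₀ none i) ∈ A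
        rw [map_sub, e]; exact hi
      · have h : π (z - cellsQ π hπ kv E q₀ i₀ none i') ∈ A := hi'
        rw [map_sub] at h
        erw [e i'] at h
        exact h
    · obtain ⟨i, hi, hu⟩ := hA q (π z)
      refine ⟨i, ?_, fun i' hi' => hu i' ?_⟩
      · show π (z - Function.surjInv hπ (E q i)) ∈ A
        rw [map_sub, hs]; exact hi
      · have h : π (z - Function.surjInv hπ (E q i')) ∈ A := hi'
        rw [map_sub, hs] at h
        exact h
  · intro B hB N hN hper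
    have inv : ∀ a, a + kv ∈ B ↔ a ∈ B :=
      moved_invariant (i₀ := i₀) (E := fun i : ι q₀ => Function.surjInv hπ (E q₀ i))
        (hB (some q₀)) (fun z => by
        have e : (Function.update (fun i : ι q₀ => Function.surjInv hπ (E q₀ i)) i₀
            (Function.surjInv hπ (E q₀ i₀) + kv)) = cellsQ π hπ kv E q₀ i₀ none := by
          funext i
          by_cases hi : i = i₀
          · subst hi; simp [cellsQ]
          · simp [cellsQ, hi]
        rw [e]; exact hB none z)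
    have sat : ∀ z w, π z = π w → (z ∈ B ↔ w ∈ B) := by
      intro z w h
      obtain ⟨t, e⟩ := hker (z - w) (by rw [map_sub, h, sub_self])
      rw [sub_eq_iff_eq_add'] at e
      rw [e, invariant_zsmul inv]
    have mem : ∀ z, π z ∈ π '' B ↔ z ∈ B := fun z =>
      ⟨fun ⟨w, hw, e⟩ => (sat z w e.symm).2 hw, fun h => ⟨z, h, rfl⟩⟩
    refine hno (π '' B) (fun q γ => ?_) N hN fun γ => ?_
    · obtain ⟨z, rfl⟩ := hπ γ
      have key : ∀ i, π z - E q i ∈ π '' B ↔ z - cellsQ π hπ kv E q₀ i₀ (some q) i ∈ B :=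
        fun i => by rw [← mem, map_sub]; simp only [cellsQ, hs]
      simp only [key]
      exact hB (some q) z
    · obtain ⟨z, rfl⟩ := hπ γ
      rw [← map_add, mem, mem]
      exact hper z _

/-- An aperiodic tile of `ℤ³` gives one in `ℤ^d` for every `d ≥ 3`. -/
theorem aperiodic_up
    (h3 : ∃ F : Finset Pt,
      (∃ A : Set Pt, ∀ z, ∃! p : Pt × Pt, p.1 ∈ A ∧ p.2 ∈ F ∧ p.1 + p.2 = z) ∧
      ∀ A : Set Pt, (∀ z, ∃! p : Pt × Pt, p.1 ∈ A ∧ p.2 ∈ F ∧ p.1 + p.2 = z) →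
        ∀ N : ℕ, 0 < N → ¬ ∀ z v : Pt, z ∈ A ↔ z + N • v ∈ A)
    (d : ℕ) (hd : 3 ≤ d) :
    ∃ F : Finset (Fin d → ℤ),
      (∃ A : Set (Fin d → ℤ), ∀ z,
        ∃! p : (Fin d → ℤ) × (Fin d → ℤ), p.1 ∈ A ∧ p.2 ∈ F ∧ p.1 + p.2 = z) ∧
      ∀ A : Set (Fin d → ℤ),
        (∀ z, ∃! p : (Fin d → ℤ) × (Fin d → ℤ), p.1 ∈ A ∧ p.2 ∈ F ∧ p.1 + p.2 = z) →
        ¬ ∃ H : AddSubgroup (Fin d → ℤ), H.index ≠ 0 ∧ ∀ h ∈ H, ∀ a, a + h ∈ A ↔ a ∈ A := by
  classical
  obtain ⟨F, ⟨A, hA⟩, hno⟩ := h3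
  obtain ⟨up, hup⟩ : ∃ up : Pt → (Fin d → ℤ),
      ∀ a i, up a i = if h : (i : ℕ) < 3 then a ⟨i, h⟩ else 0 := ⟨_, fun _ _ => rfl⟩
  obtain ⟨down, hhd⟩ : ∃ down : (Fin d → ℤ) → Pt, ∀ z i, down z i = z (Fin.castLE hd i) :=
    ⟨_, fun _ _ => rfl⟩
  have hdup : ∀ a, down (up a) = a := by
    intro a; funext i
    rw [hhd, hup, dif_pos (by simp)]
    rfl
  have upadd : ∀ a b, up (a + b) = up a + up b := by
    intro a b; funext i
    by_cases h : (i : ℕ) < 3 <;> simp [hup, h]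
  have hdadd : ∀ a b, down (a + b) = down a + down b := by
    intro a b; funext i; simp [hhd]
  refine ⟨F.image up, ⟨{z | down z ∈ A}, fun z => ?_⟩, ?_⟩
  · obtain ⟨⟨a, f⟩, ⟨ha, hf, hs⟩, hu⟩ := hA (down z)
    refine ⟨(z - up f, up f), ⟨?_, Finset.mem_image_of_mem up hf, sub_add_cancel _ _⟩, ?_⟩
    · show down (z - up f) ∈ A
      have : down (z - up f) = a := by
        have := hdadd (z - up f) (up f)
        rw [sub_add_cancel, hdup, ← hs] at this
        exact (add_right_cancel this).symm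
      rw [this]; exact ha
    · rintro ⟨a', f'⟩ ⟨ha', hf', hs'⟩
      simp only [Finset.mem_image] at hf'
      obtain ⟨g, hg, rfl⟩ := hf'
      simp only at hs' ha'
      have h := hu (down a', g) ⟨ha', hg, by rw [← hs', hdadd, hdup]⟩
      simp only [Prod.mk.injEq] at h
      rw [← h.2, ← hs', add_sub_cancel_right]
  · rintro A' hA' ⟨H, hH, hper⟩
    refine hno {a | up a ∈ A'} (fun z => ?_) H.index (Nat.pos_of_ne_zero hH) fun z v => ?_
    · obtain ⟨⟨a, f⟩, ⟨ha, hf, hs⟩, hu⟩ := hA' (up z)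
      simp only [Finset.mem_image] at hf
      obtain ⟨g, hg, rfl⟩ := hf
      simp only at hs ha
      have e : a = up (z - g) := by
        have := upadd (z - g) g
        rw [sub_add_cancel, ← hs] at this
        exact add_right_cancel this
      refine ⟨(z - g, g), ⟨by show up (z - g) ∈ A'; rw [← e]; exact ha, hg, sub_add_cancel _ _⟩, ?_⟩
      rintro ⟨b, g'⟩ ⟨hb, hg', hs'⟩
      simp only at hs'
      have h := hu (up b, up g') ⟨hb, Finset.mem_image_of_mem up hg', by rw [← upadd, hs']⟩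
      simp only [Prod.mk.injEq] at h
      have h2 : g' = g := by rw [← hdup g', h.2, hdup]
      subst h2
      rw [← hs', add_sub_cancel_right]
    · show up z ∈ A' ↔ up (z + H.index • v) ∈ A'
      have e : up (H.index • v) = H.index • up v := by
        funext i; by_cases h : (i : ℕ) < 3 <;> simp [hup, h]
      rw [upadd, e]
      exact (hper _ (AddSubgroup.nsmul_index_mem H (up v)) (up z)).symm

/-- The quotient map `ℤ³ → ℤ² × ℤ/M`. -/
def cycMap (M : ℕ) : Pt →+ (ℤ × ℤ) × ZMod M where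
  toFun z := ((z 0, z 1), (z 2 : ZMod M))
  map_zero' := by simp
  map_add' a b := by simp

lemma cycMap_surjective (M : ℕ) : Function.Surjective (cycMap M) := by
  rintro ⟨⟨a, b⟩, Y⟩
  obtain ⟨y, rfl⟩ := ZMod.intCast_surjective Y
  exact ⟨![a, b, y], by simp [cycMap]⟩

/-- A system on `ℤ² × ℤ/M` with a solution and none periodic in the first direction gives
aperiodic tiles in `ℤ^d` for every `d ≥ 3`. -/
theorem aperiodic_of_cyclic (M : ℕ) [Finite Q] [Nonempty Q] [∀ q, Finite (ι q)]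
    (E : ∀ q, ι q → (ℤ × ℤ) × ZMod M)
    (hsol : ∃ A : Set ((ℤ × ℤ) × ZMod M), ∀ q, Covers A (E q))
    (hno : ∀ A : Set ((ℤ × ℤ) × ZMod M), (∀ q, Covers A (E q)) → ∀ N : ℕ, 0 < N →
      ¬ ∀ γ, γ ∈ A ↔ γ + (((N : ℤ), 0), 0) ∈ A)
    (d : ℕ) (hd : 3 ≤ d) :
    ∃ F : Finset (Fin d → ℤ),
      (∃ A : Set (Fin d → ℤ), ∀ z,
        ∃! p : (Fin d → ℤ) × (Fin d → ℤ), p.1 ∈ A ∧ p.2 ∈ F ∧ p.1 + p.2 = z) ∧
      ∀ A : Set (Fin d → ℤ),
        (∀ z, ∃! p : (Fin d → ℤ) × (Fin d → ℤ), p.1 ∈ A ∧ p.2 ∈ F ∧ p.1 + p.2 = z) →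
        ¬ ∃ H : AddSubgroup (Fin d → ℤ), H.index ≠ 0 ∧ ∀ h ∈ H, ∀ a, a + h ∈ A ↔ a ∈ A := by
  refine aperiodic_up (tile_of_quotient (cycMap M) (cycMap_surjective M) ![0, 0, (M : ℤ)] ?_ ?_ E
    hsol ?_) d hd
  · simp [cycMap, Prod.ext_iff]
  · intro z hz
    simp only [cycMap, AddMonoidHom.coe_mk, ZeroHom.coe_mk, Prod.ext_iff, Prod.fst_zero,
      Prod.snd_zero] at hz
    obtain ⟨⟨h0, h1⟩, h2⟩ := hz
    rw [ZMod.intCast_zmod_eq_zero_iff_dvd] at h2
    obtain ⟨t, ht⟩ := h2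
    refine ⟨t, funext fun i => ?_⟩
    fin_cases i <;> simp [h0, h1, ht]; ring
  · intro A hA N hN h
    refine hno A hA N hN fun γ => ?_
    have e : ((((N : ℤ), 0), 0) : (ℤ × ℤ) × ZMod M) = cycMap M (N • unit3 0) := by
      simp [cycMap, unit3, Prod.ext_iff]
    rw [e]; exact h γ

end Vale.Agent.P043.D3
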