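import Mathlib
import Vale.Agent.P043.D3.System
import Vale.Agent.P043.D3.FromQuotient

/-!
P043: aperiodic translational tiles in `ℤ^d` for every `d ≥ 3`, from the system in `ℤ² × ℤ/R²`.
-/

namespace Vale.Agent.P043.D3

instance : Nonempty Eqn := ⟨.base⟩

/-- The system of `System.lean` gives an aperiodic tile of `ℤ^d` for every `d ≥ 3`, provided it
has a solution and no solution periodic in the first direction. -/
theorem aperiodic_dim_of (S : Par Var vb)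
    (hsys : (∃ A : Set (Gam S.R), ∀ q, Covers A (eqCells S q)) ∧
      ∀ A, (∀ q, Covers A (eqCells S q)) → ∀ N : ℕ, 0 < N →
        ¬ ∀ g, g ∈ A ↔ g + (((N : ℤ), 0), 0) ∈ A)
    (d : ℕ) (hd : 3 ≤ d) :
    ∃ F : Finset (Fin d → ℤ),
      (∃ A : Set (Fin d → ℤ), ∀ z,
        ∃! p : (Fin d → ℤ) × (Fin d → ℤ), p.1 ∈ A ∧ p.2 ∈ F ∧ p.1 + p.2 = z) ∧
      ∀ A : Set (Fin d → ℤ),
        (∀ z, ∃! p : (Fin d → ℤ) × (Fin d → ℤ), p.1 ∈ A ∧ p.2 ∈ F ∧ p.1 + p.2 = z) →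
        ¬ ∃ H : AddSubgroup (Fin d → ℤ), H.index ≠ 0 ∧ ∀ h ∈ H, ∀ a, a + h ∈ A ↔ a ∈ A :=
  aperiodic_of_cyclic (S.R * S.R) (eqCells S) hsys.1 hsys.2 d hd

end Vale.Agent.P043.D3
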