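import Mathlib
import Vale.Agent.P043.D3.System

/-!
P043, dimension three: every solution of the system is free of periods.
-/

namespace Vale.Agent.P043.D3

open Vale.Agent.P043 (coef)

variable (S : Par Var vb) (a : ℤ × ℤ → ℤ → Fib S.R)

/-- periods in `y` of the value of a bit over a point -/
def per (i : Var) (x : ℤ × ℤ) : AddSubgroup ℤ where
  carrier := {z | ∀ y, pj S i (a x (y + z)) = pj S i (a x y)}
  zero_mem' := fun y => by simp
  add_mem' := fun {z w} hz hw y => by rw [← add_assoc, hw, hz]
  neg_mem' := fun {z} hz y => by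
    have := hz (y + -z)
    rw [neg_add_cancel_right] at this
    exact this.symm

lemma mem_per {i : Var} {x : ℤ × ℤ} {z : ℤ} :
    z ∈ per S a i x ↔ ∀ y, pj S i (a x (y + z)) = pj S i (a x y) := Iff.rfl

/-- the period on which a bit depends -/
def own (i : Var) : ℤ :=
  (S.mo (mJ i) : ℤ) ^ 2 * S.mo (mP i) * S.mo (mQ i)

/-- the three moduli of a bit -/
def ownSet (i : Var) : Finset (Md Var) := {mJ i, mP i, mQ i}

/-- the first literal -/
def IsA (i : Var) (x : ℤ × ℤ) : Prop := eS S i false ∈ per S a i x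

/-- the second literal -/
def IsB (i : Var) (x : ℤ × ℤ) : Prop := eS S i true ∈ per S a i x

variable {S a}

set_option linter.constructorNameAsVariable false in
lemma own_mem (h : Cond S a) (i : Var) (x : ℤ × ℤ) : own S i ∈ per S a i x := by
  classical
  have base : ((S.R : ℤ) * S.mo (mJ i)) ∈ per S a i x := by
    rw [mem_per]
    intro y
    rw [h.cov, map_add, add_eq_left, pj, AddMonoidHom.comp_apply, prj_int]
    simp
  have eR : (S.R : ℤ) * S.mo (mJ i)
      = own S i * ∏ n ∈ (ownSet i)ᶜ, (S.mo n : ℤ) := by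
    have e0 : (S.R : ℤ) = (∏ n ∈ ownSet i, (S.mo n : ℤ)) * ∏ n ∈ (ownSet i)ᶜ, (S.mo n : ℤ) := by
      rw [Finset.prod_mul_prod_compl, S.R_eq, Nat.cast_prod]
    rw [e0, ownSet, Finset.prod_insert (by simp), Finset.prod_pair (by simp), own]
    ring
  rw [eR] at base
  suffices hs : ∀ s : Finset (Md Var), (∀ n ∈ s, n ∉ ownSet i) →
      own S i * ∏ n ∈ s, (S.mo n : ℤ) ∈ per S a i x → own S i ∈ per S a i x from
    hs _ (fun n hn => Finset.mem_compl.1 hn) base
  intro s
  induction s using Finset.induction_on with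
  | empty => intro _ hh; simpa using hh
  | @insert n s hns ih =>
    intro hsub hh
    apply ih (fun m hm => hsub m (Finset.mem_insert_of_mem hm))
    have hn := hsub n (Finset.mem_insert_self _ _)
    have hE : S.E n ∈ per S a i x := by
      rw [mem_per]
      refine h.indep i n ?_ x
      simpa [ownSet, Foreign] using hn
    have hdvd : own S i * ∏ m ∈ s, (S.mo m : ℤ) ∣ S.E n := by
      have big : ∏ m ∈ ownSet i ∪ s, (S.mo m : ℤ) ^ 2 ∣ S.E n := by
        apply Finset.prod_dvd_of_coprime
        · intro m _ m' _ hmm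
          exact (Nat.isCoprime_iff_coprime.2 (S.mo_cop m m' hmm)).pow
        · intro m hm
          refine S.sq_dvd_E ?_
          rintro rfl
          rcases Finset.mem_union.1 hm with hm | hm
          · exact hn hm
          · exact hns hm
      refine Dvd.dvd.trans ?_ big
      rw [Finset.prod_union (Finset.disjoint_right.2 fun m hm hm' =>
        hsub m (Finset.mem_insert_of_mem hm) hm')]
      refine mul_dvd_mul ?_ (Finset.prod_dvd_prod_of_dvd _ _ fun m _ => dvd_pow_self _ two_ne_zero)
      rw [ownSet, Finset.prod_insert (by simp), Finset.prod_pair (by simp), own, mul_assoc]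
      exact mul_dvd_mul dvd_rfl
        (mul_dvd_mul (dvd_pow_self _ two_ne_zero) (dvd_pow_self _ two_ne_zero))
    obtain ⟨e, he⟩ := hdvd
    obtain ⟨t, ht⟩ : (S.mo n : ℤ) ∣ S.E n - 1 := by
      rw [← ZMod.intCast_zmod_eq_zero_iff_dvd, Int.cast_sub, S.E_self, Int.cast_one, sub_self]
    obtain ⟨M, hM⟩ : ∃ M, M = own S i * ∏ m ∈ s, (S.mo m : ℤ) := ⟨_, rfl⟩
    rw [← hM] at he ⊢
    rw [Finset.prod_insert hns] at hh
    have key : M = M • S.E n - t • (own S i * ((S.mo n : ℤ) * ∏ m ∈ s, (S.mo m : ℤ))) := by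
      simp only [smul_eq_mul]
      linear_combination (-M) * ht - (t * (S.mo n : ℤ)) * hM
    rw [key]
    exact sub_mem (zsmul_mem hE _) (zsmul_mem hh _)

/-- values depend only on the residue modulo the own period -/
lemma pj_congr (h : Cond S a) (i : Var) (x : ℤ × ℤ) {y z : ℤ} (hd : own S i ∣ z - y) :
    pj S i (a x z) = pj S i (a x y) := by
  obtain ⟨k, hk⟩ := hd
  have := (zsmul_mem (own_mem h i x) k : k • own S i ∈ per S a i x) y
  rw [smul_eq_mul, show y + k * own S i = z by linear_combination -hk] at this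
  exact this

/-- a disjunction at all points of a fibre holds with one literal -/
lemma exists_lit (h : Cond S a) {κ : Type*} [Nonempty κ] (f : κ → Var) (hf : Function.Injective f)
    (pol : κ → Bool) (x : ℤ × ℤ) (hall : ∀ y, ∃ k, Lit S a (f k) (pol k) x y) :
    ∃ k, eS S (f k) (pol k) ∈ per S a (f k) x := by
  classical
  by_contra hno
  simp only [mem_per, not_exists, not_forall] at hno
  choose w hw using hno
  obtain ⟨z, hz⟩ := S.crt_sq fun d => Sum.elim (fun p => Function.extend f w 0 p.1) (fun _ => 0) d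
  obtain ⟨k, hk⟩ := hall z
  apply hw k
  have hdvd : own S (f k) ∣ z - w k := by
    have e : ∀ t : Fin 3, (S.mo (Sum.inl (f k, t)) : ℤ) ^ 2 ∣ z - w k := fun t => by
      have := hz (Sum.inl (f k, t))
      simpa [hf.extend_apply] using this
    have big : ∏ m ∈ ownSet (f k), (S.mo m : ℤ) ^ 2 ∣ z - w k := by
      apply Finset.prod_dvd_of_coprime
      · intro m _ m' _ hmm
        exact (Nat.isCoprime_iff_coprime.2 (S.mo_cop m m' hmm)).pow
      · intro m hm
        simp only [ownSet, Finset.mem_insert, Finset.mem_singleton] at hm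
        rcases hm with rfl | rfl | rfl <;> exact e _
    refine Dvd.dvd.trans ?_ big
    rw [ownSet, Finset.prod_insert (by simp), Finset.prod_pair (by simp), own, mul_assoc]
    exact mul_dvd_mul dvd_rfl
      (mul_dvd_mul (dvd_pow_self _ two_ne_zero) (dvd_pow_self _ two_ne_zero))
  have hdvd' : own S (f k) ∣ (z + eS S (f k) (pol k)) - (w k + eS S (f k) (pol k)) := by
    rwa [add_sub_add_right_eq_sub]
  rw [← pj_congr h (f k) x hdvd, ← pj_congr h (f k) x hdvd']
  exact hk

lemma pj_lateral (h : Cond S a) (i : Var) (n : ℤ) (x : ℤ × ℤ) (y : ℤ) :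
    pj S i (a (x + n • vdir i) y) = pj S i (a x y) := by
  induction n using Int.induction_on with
  | zero => simp
  | succ j ih => rw [add_smul, one_smul, ← add_assoc, h.dir, ih]
  | pred j ih =>
    have := h.dir i (x + (-(j : ℤ) - 1) • vdir i) y
    rw [add_assoc, ← add_one_zsmul, sub_add_cancel, ih] at this
    exact this.symm

lemma per_lateral (h : Cond S a) (i : Var) (n : ℤ) (x : ℤ × ℤ) :
    per S a i (x + n • vdir i) = per S a i x := by
  ext z
  simp only [mem_per, pj_lateral h]

/-- the incidences of a window, slot by slot -/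
lemma sum_mult {J : Type*} [Fintype J] (i : Var) (v : J → Val (S.A i) (S.B i))
    (V : Val (S.A i) (S.B i)) :
    (Finset.univ.filter fun p : J × Val (S.A i) (S.B i) => ent p.2 (V + v p.1)).card
      = ∑ j, mult (V + v j) := by
  simp only [mult, Finset.card_filter, Fintype.sum_prod_type]

lemma nand_sum (h : Cond S a) (i : Var) (x : ℤ × ℤ) (y : ℤ) (V : Val (S.A i) (S.B i)) :
    ∑ k : Fin (S.P i), ∑ l : Fin (S.Q i),
      mult (V + pj S i (a x (y + ((k : ℕ) * S.E (mP i) + (l : ℕ) * S.E (mQ i)))))
      = S.P i * S.Q i := by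
  classical
  have : NeZero (S.mo (mP i)) := ⟨Nat.ne_of_gt (Nat.zero_lt_of_lt (S.mo_lt _))⟩
  have : NeZero (S.mo (mQ i)) := ⟨Nat.ne_of_gt (Nat.zero_lt_of_lt (S.mo_lt _))⟩
  have hc := count_card (h.nand i x y V)
  simp only [shN, pj_lateral h, Fintype.card_prod, ZMod.card] at hc
  rw [show S.P i * S.Q i = S.mo (mP i) * S.mo (mQ i) from rfl, ← hc,
    ← Fintype.sum_prod_type', ← sum_mult]
  refine Finset.card_equiv (Equiv.prodAssoc _ _ _) fun p => ?_
  simp

lemma mult_origin (i : Var) : mult (0 : Val (S.A i) (S.B i)) = 2 := by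
  have := mult_cast (0 : Val (S.A i) (S.B i))
  simp [show (0 : Val (S.A i) (S.B i)) = (0, 0) from rfl] at this ⊢
  omega

lemma window_const {i : Var} {x : ℤ × ℤ} {e : ℤ} (he : e ∈ per S a i x) (y : ℤ) (k : ℕ) :
    pj S i (a x (y + k * e)) = pj S i (a x y) := by
  have := (zsmul_mem he (k : ℤ) : (k : ℤ) • e ∈ per S a i x) y
  simpa using this

/-- no bit has both literals -/
lemma not_both (h : Cond S a) (i : Var) (x : ℤ × ℤ) (hA : IsA S a i x) (hB : IsB S a i x) :
    False := by
  have hs := nand_sum h i x 0 (-(pj S i (a x 0)))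
  have e : ∀ k l : ℕ, pj S i (a x (0 + (k * S.E (mP i) + l * S.E (mQ i)))) = pj S i (a x 0) := by
    intro k l
    rw [← add_assoc]
    exact (window_const hB _ l).trans (window_const hA _ k)
  simp only [e, neg_add_cancel, mult_origin, Finset.sum_const, Finset.card_univ, Fintype.card_fin,
    smul_eq_mul] at hs
  have h1 : 0 < S.P i := Nat.zero_lt_of_lt (S.mo_lt (mP i))
  have h2 : 0 < S.Q i := Nat.zero_lt_of_lt (S.mo_lt (mQ i))
  have := Nat.mul_pos h1 h2
  rw [← mul_assoc] at hs
  omega

lemma neg_mask (h : Cond S a) (x : ℤ × ℤ) (hA : ¬ IsA S a vb x) : IsB S a vb x := by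
  have pinj : Function.Injective pairBC := fun k l hh => by simpa [pairBC] using hh
  obtain ⟨k, hk⟩ := exists_lit h pairBC pinj (fun _ => false) x (h.pairs false x)
  obtain ⟨l, hl⟩ := exists_lit h pairBC pinj (fun _ => true) x (h.pairs true x)
  fin_cases k
  · exact absurd hk hA
  fin_cases l
  · exact hl
  · exact absurd hl (fun hl' => not_both h _ x hk hl')

/-- a system solution has no period along the first axis -/
lemma cond_no_period (h : Cond S a) (N : ℕ) (hN : 0 < N)
    (hper : ∀ x y, a (x + ((N : ℤ), 0)) y = a x y) : False := by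
  classical
  obtain ⟨bit, hbit⟩ : ∃ bit : Var → ℤ → Bool,
      ∀ i m, bit i m = decide (IsA S a i (bpt i m)) := ⟨_, fun _ _ => rfl⟩
  have hline : ∀ i x, bit i (flin i x) = decide (IsA S a i x) := by
    intro i x
    obtain ⟨k, hk⟩ := point_eq i x
    rw [hbit, decide_eq_decide, IsA, IsA]
    conv_rhs => rw [hk, per_lateral h]
  have bvb : ∀ m : ℤ, bit vb m = decide (IsA S a vb (0, m)) := by
    intro m
    rw [hbit]
    simp [bpt, fm]
  have hPpos : 0 < S.P vb := Nat.zero_lt_of_lt (S.mo_lt (mP vb))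
  have hQpos : 0 < S.Q vb := Nat.zero_lt_of_lt (S.mo_lt (mQ vb))
  have : NeZero (S.mo (mP vb)) := ⟨hPpos.ne'⟩
  have : NeZero (S.mo (mQ vb)) := ⟨hQpos.ne'⟩
  have : NeZero (S.mo (Sum.inr (0 : Fin 2))) := ⟨by simp [Par.mo, moOf]⟩
  have : NeZero (S.mo (Sum.inr (1 : Fin 2))) := ⟨by simp [Par.mo, moOf]⟩
  apply clock_no_periodic bit ?_ ?_ ?_ N (by omega) ?_
  · intro x
    by_contra hnR
    obtain ⟨i, hi⟩ := exists_lit h (fun i : Var => i) (fun _ _ e => e)
      (fun i => bit i (flin i x)) x (h.forb ⟨_, hnR⟩ x)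
    rw [hline] at hi
    by_cases hA : IsA S a i x
    · rw [decide_eq_true hA] at hi
      exact not_both h i x hA hi
    · rw [decide_eq_false hA] at hi
      exact hA hi
  · intro m
    obtain ⟨F, hF⟩ : ∃ F : Fin 4 → Val (S.A vb) (S.B vb),
        ∀ j, F j = pj S vb (a (0, m + 7 * (j : ℕ)) 0) := ⟨_, fun _ => rfl⟩
    obtain ⟨T, hT⟩ : ∃ T : Finset (Fin 4),
        T = Finset.univ.filter fun j : Fin 4 => bit vb (m + 7 * (j : ℕ)) = true := ⟨_, rfl⟩
    have bal : ∀ V, ∑ j ∈ T, mult (V + F j) = T.card := by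
      intro V
      have hc := count_card (h.rows (0, m) 0 V)
      have e : ∀ j : Fin 4 × Fin (S.P vb) × Val (S.A vb) (S.B vb),
          pj S vb (a ((0, m) + (shA S j).1) (0 + (shA S j).2))
            = pj S vb (a (0, m + 7 * (j.1 : ℕ)) (0 + (j.2.1 : ℕ) * S.E (mP vb))) := by
        intro j
        simp only [shA, ← add_assoc, pj_lateral h]
        simp
      simp only [e, Fintype.card_prod, ZMod.card] at hc
      have hsum : ∑ j : Fin 4, ∑ k : Fin (S.P vb),
          mult (V + pj S vb (a (0, m + 7 * (j : ℕ)) (0 + (k : ℕ) * S.E (mP vb)))) = 4 * S.P vb := by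
        rw [show 4 * S.P vb = S.mo (Sum.inr 0) * S.mo (mP vb) from rfl, ← hc,
          ← Fintype.sum_prod_type', ← sum_mult]
        refine Finset.card_equiv (Equiv.prodAssoc _ _ _) fun p => ?_
        simp
      have each : ∀ j : Fin 4, ∑ k : Fin (S.P vb),
          mult (V + pj S vb (a (0, m + 7 * (j : ℕ)) (0 + (k : ℕ) * S.E (mP vb))))
          = S.P vb * if j ∈ T then mult (V + F j) else 1 := by
        intro j
        by_cases hj : IsA S a vb (0, m + 7 * (j : ℕ))
        · rw [if_pos (by simp [hT, bvb, hj])]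
          have hw : ∀ k : ℕ, pj S vb (a (0, m + 7 * (j : ℕ)) (0 + k * S.E (mP vb))) = F j :=
            fun k => (window_const hj 0 k).trans (hF j).symm
          simp only [hw, Finset.sum_const, Finset.card_univ, Fintype.card_fin, smul_eq_mul]
        · rw [if_neg (by simp [hT, bvb, hj]), mul_one]
          have hs := nand_sum h vb (0, m + 7 * (j : ℕ)) 0 V
          have hw : ∀ k l : ℕ, pj S vb (a (0, m + 7 * (j : ℕ))
              (0 + (k * S.E (mP vb) + l * S.E (mQ vb))))
              = pj S vb (a (0, m + 7 * (j : ℕ)) (0 + k * S.E (mP vb))) := fun k l => by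
            rw [← add_assoc]
            exact window_const (neg_mask h _ hj) _ l
          simp only [hw, Finset.sum_const, Finset.card_univ, Fintype.card_fin, smul_eq_mul] at hs
          rw [← Finset.mul_sum, mul_comm (S.P vb)] at hs
          exact Nat.eq_of_mul_eq_mul_left hQpos hs
      simp only [each, ← Finset.mul_sum] at hsum
      rw [mul_comm 4] at hsum
      have h4 := Nat.eq_of_mul_eq_mul_left hPpos hsum
      rw [Finset.sum_ite, Finset.sum_const, smul_eq_mul, mul_one,
        Finset.filter_mem_eq_inter, Finset.univ_inter,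
        show (Finset.univ.filter fun j : Fin 4 => j ∉ T) = Tᶜ by ext; simp] at h4
      have hcard := Finset.card_add_card_compl T
      simp only [Fintype.card_fin] at hcard
      omega
    obtain ⟨α, β, hαβ⟩ := size_of_balanced T F bal
    rw [← hT]
    have hle : T.card ≤ 4 := by simpa using Finset.card_le_univ T
    rw [S.A_zero, S.B_zero] at hαβ
    simp only [Finset.mem_insert, Finset.mem_singleton]
    have hβ : β = 0 := by omega
    have hα : α ≤ 1 := by omega
    subst hβ
    interval_cases α <;> omega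
  · intro m
    by_contra hnone
    simp only [not_exists, bvb, decide_eq_true_eq] at hnone
    obtain ⟨F, hF⟩ : ∃ F : Fin 7 → Val (S.A vb) (S.B vb),
        ∀ j, F j = pj S vb (a (0, m + 4 * (j : ℕ)) 0) := ⟨_, fun _ => rfl⟩
    have bal : ∀ V, ∑ j ∈ Finset.univ, mult (V + F j) = (Finset.univ : Finset (Fin 7)).card := by
      intro V
      have hc := count_card (h.cols (0, m) 0 V)
      have e : ∀ j : Fin 7 × Fin (S.Q vb) × Val (S.A vb) (S.B vb),
          pj S vb (a ((0, m) + (shB S j).1) (0 + (shB S j).2))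
            = F j.1 := by
        intro j
        rw [hF]
        simp only [shB, ← add_assoc, pj_lateral h]
        refine Eq.trans ?_ (window_const (neg_mask h _ (hnone j.1)) 0 j.2.1)
        simp [eS]
      simp only [e, Fintype.card_prod, ZMod.card] at hc
      have hsum : ∑ j : Fin 7, ∑ _k : Fin (S.Q vb), mult (V + F j) = 7 * S.Q vb := by
        rw [show 7 * S.Q vb = S.mo (Sum.inr 1) * S.mo (mQ vb) from rfl, ← hc,
          ← Fintype.sum_prod_type', ← sum_mult]
        refine Finset.card_equiv (Equiv.prodAssoc _ _ _) fun p => ?_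
        simp
      simp only [Finset.sum_const, Finset.card_univ, Fintype.card_fin, smul_eq_mul,
        ← Finset.mul_sum] at hsum ⊢
      rw [mul_comm 7] at hsum
      exact Nat.eq_of_mul_eq_mul_left hQpos hsum
    obtain ⟨α, β, hαβ⟩ := size_of_balanced Finset.univ F bal
    rw [S.A_zero, S.B_zero, Finset.card_univ, Fintype.card_fin] at hαβ
    omega
  · intro b m
    rw [hbit, hbit, decide_eq_decide]
    have e : ∀ k : ℤ, bpt (Sum.inl (((2 : Fin 3), (0 : Fin 5)), b)) k = (k, 0) := fun k => by
      simp [bpt, fm, coef]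
    rw [e, e]
    have e' : ∀ y, a (m + (N : ℤ), 0) y = a (m, 0) y := fun y => by simpa using hper (m, 0) y
    simp [IsA, mem_per, e']

end Vale.Agent.P043.D3
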