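import Mathlib
import Vale.Agent.P043.D3.Sound
import Vale.Agent.P043.D3.Exist

/-!
P043, dimension three: the system in `ℤ² × ℤ/R²` has solutions and none of them is periodic.
-/

namespace Vale.Agent.P043.D3

theorem system (S : Par Var vb) :
    (∃ A : Set (Gam S.R), ∀ q, Covers A (eqCells S q)) ∧
    ∀ A : Set (Gam S.R), (∀ q, Covers A (eqCells S q)) → ∀ N : ℕ, 0 < N →
      ¬ ∀ γ, γ ∈ A ↔ γ + (((N : ℤ), 0), 0) ∈ A := by
  constructor
  · obtain ⟨a, ha⟩ := exists_cond S
    exact ⟨_, (covers_iff_cond S (hasSection_range S.R a ha.cov)).2 ha⟩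
  · intro A hA N hN hp
    obtain ⟨a, ha⟩ := (base_covers_iff S.R A).1 (hA .base)
    refine cond_no_period ((covers_iff_cond S ha).1 hA) N hN fun x y => ?_
    refine ((ha (x + ((N : ℤ), 0)) y (a x y)).1 ?_).symm
    have := (hp _).1 ((ha x y _).2 rfl)
    convert this using 1
    ext <;> simp [pnt, emb]

end Vale.Agent.P043.D3
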